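import Vale.Agent.P034.H953.Core

set_option linter.all false

namespace Vale.Agent.P034.H953

open Finset Vale.Agent.P034

variable {X : Type*} [Fintype X] [DecidableEq X]

/-- the embedding of `X` as the `i`-th copy in `Fin M × X` -/
def emb (X : Type*) (M : ℕ) (i : Fin M) : X ↪ Fin M × X :=
  ⟨fun x => (i, x), fun _ _ h => (Prod.mk.inj h).2⟩

@[simp] theorem emb_apply (M : ℕ) (i : Fin M) (x : X) : emb X M i x = (i, x) := rfl

theorem emb_map_inj {M : ℕ} {i i' : Fin M} {S S' : Finset X} (hS : S.Nonempty)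
    (h : S.map (emb X M i) = S'.map (emb X M i')) : i = i' ∧ S = S' := by
  obtain ⟨x, hx⟩ := hS
  have h1 : (i, x) ∈ S'.map (emb X M i') := by
    rw [← h, mem_map]; exact ⟨x, hx, rfl⟩
  rw [mem_map] at h1
  obtain ⟨y, _, hy⟩ := h1
  have h2 : i = i' := by
    simp only [emb_apply, Prod.mk.injEq] at hy; exact hy.1.symm
  subst h2
  exact ⟨rfl, Finset.map_injective _ h⟩

/-- The covers of `M` disjoint copies. -/
theorem copies_cost (M : ℕ) (F : Finset (Finset X)) (q : X → ℝ) (hq : ∀ x, 0 < q x) (ε : ℝ)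
    (hε : ∀ G : Finset (Finset X), (∀ H ∈ F, ∃ S ∈ G, S ⊆ H) → ε ≤ ∑ S ∈ G, ∏ x ∈ S, q x)
    (hM : 1 / 2 ≤ M * ε) (G' : Finset (Finset (Fin M × X)))
    (hG' : ∀ H' ∈ (univ : Finset (Fin M)).biUnion (fun i => F.image (fun H => H.map (emb X M i))),
      ∃ S ∈ G', S ⊆ H') :
    1 / 2 ≤ ∑ S ∈ G', ∏ x ∈ S, q x.2 := by
  classical
  have hnn : ∀ S : Finset (Fin M × X), 0 ≤ ∏ x ∈ S, q x.2 :=
    fun S => Finset.prod_nonneg (fun x _ => (hq _).le)
  by_cases h0 : ∅ ∈ G'
  · have := Finset.single_le_sum (f := fun S : Finset (Fin M × X) => ∏ x ∈ S, q x.2)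
      (fun S _ => hnn S) h0
    simp only [prod_empty] at this
    linarith only [this]
  · set Gi : Fin M → Finset (Finset X) :=
      fun i => univ.filter (fun S => S.map (emb X M i) ∈ G') with hGi
    have hcov : ∀ i, ε ≤ ∑ S ∈ Gi i, ∏ x ∈ S, q x := by
      intro i
      apply hε
      intro H hH
      obtain ⟨S', hS', hsub⟩ := hG' (H.map (emb X M i)) (by
        rw [mem_biUnion]
        exact ⟨i, mem_univ _, mem_image_of_mem _ hH⟩)
      rw [Finset.subset_map_iff] at hsub
      obtain ⟨S, hS, rfl⟩ := hsub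
      refine ⟨S, ?_, hS⟩
      rw [hGi]
      simp only [mem_filter, mem_univ, true_and]
      exact hS'
    have h1 : (M : ℝ) * ε ≤ ∑ i : Fin M, ∑ S ∈ Gi i, ∏ x ∈ S, q x := by
      have := Finset.sum_le_sum (fun i (_ : i ∈ (univ : Finset (Fin M))) => hcov i)
      simpa using this
    have h2 : ∑ i : Fin M, ∑ S ∈ Gi i, ∏ x ∈ S, q x
        = ∑ a ∈ (univ : Finset (Fin M)).sigma Gi, ∏ x ∈ a.2.map (emb X M a.1), q x.2 := by
      rw [Finset.sum_sigma]
      apply Finset.sum_congr rfl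
      intro i _
      apply Finset.sum_congr rfl
      intro S _
      rw [Finset.prod_map]
      rfl
    have h3 : ∑ a ∈ (univ : Finset (Fin M)).sigma Gi, ∏ x ∈ a.2.map (emb X M a.1), q x.2
        = ∑ S' ∈ ((univ : Finset (Fin M)).sigma Gi).image (fun a => a.2.map (emb X M a.1)),
            ∏ x ∈ S', q x.2 := by
      rw [Finset.sum_image]
      rintro ⟨i, S⟩ hS ⟨i', S'⟩ hS' heq
      simp only at heq
      have hne : S.Nonempty := by
        rw [Finset.mem_coe, mem_sigma] at hS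
        have h4 := hS.2
        rw [hGi] at h4
        simp only [mem_filter, mem_univ, true_and] at h4
        by_contra hcon
        rw [Finset.not_nonempty_iff_eq_empty] at hcon
        rw [hcon, Finset.map_empty] at h4
        exact h0 h4
      obtain ⟨h5, h6⟩ := emb_map_inj hne heq
      subst h5; subst h6; rfl
    have h4 : ∑ S' ∈ ((univ : Finset (Fin M)).sigma Gi).image (fun a => a.2.map (emb X M a.1)),
            ∏ x ∈ S', q x.2 ≤ ∑ S ∈ G', ∏ x ∈ S, q x.2 := by
      apply Finset.sum_le_sum_of_subset_of_nonneg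
      · intro S' hS'
        rw [mem_image] at hS'
        obtain ⟨⟨i, S⟩, ha, rfl⟩ := hS'
        rw [mem_sigma] at ha
        have h5 := ha.2
        rw [hGi] at h5
        simpa only [mem_filter, mem_univ, true_and] using h5
      · intro S _ _
        exact hnn S
    linarith only [hM, h1, h2, h3, h4]

/-- Fractional covers of `M` disjoint copies. -/
noncomputable def gcop (M : ℕ) (g : Finset X → ℝ) (S' : Finset (Fin M × X)) : ℝ :=
  ∑ i : Fin M, ∑ S : Finset X, if S.map (emb X M i) = S' then g S else 0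

theorem gcop_cost (M : ℕ) (g : Finset X → ℝ) (W : Finset (Fin M × X) → ℝ) :
    ∑ S' : Finset (Fin M × X), gcop M g S' * W S'
      = ∑ i : Fin M, ∑ S : Finset X, g S * W (S.map (emb X M i)) := by
  unfold gcop
  simp only [Finset.sum_mul]
  rw [Finset.sum_comm]
  apply Finset.sum_congr rfl
  intro i _
  rw [Finset.sum_comm]
  apply Finset.sum_congr rfl
  intro S _
  simp only [ite_mul, zero_mul, Finset.sum_ite_eq, mem_univ, if_true]

theorem gcop_cover (M : ℕ) (g : Finset X → ℝ) (hg : ∀ S, 0 ≤ g S) (i : Fin M) (H : Finset X) :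
    ∑ S ∈ H.powerset, g S ≤ ∑ S' ∈ (H.map (emb X M i)).powerset, gcop M g S' := by
  classical
  have h1 : ∀ S' : Finset (Fin M × X),
      (∑ S : Finset X, if S.map (emb X M i) = S' then g S else 0) ≤ gcop M g S' := by
    intro S'
    unfold gcop
    exact Finset.single_le_sum (f := fun i : Fin M =>
      ∑ S : Finset X, if S.map (emb X M i) = S' then g S else 0)
      (fun j _ => Finset.sum_nonneg (fun S _ => by split_ifs; exacts [hg S, le_rfl])) (mem_univ i)
  refine le_trans ?_ (Finset.sum_le_sum (fun S' _ => h1 S'))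
  rw [Finset.sum_comm]
  have h2 : ∀ S : Finset X,
      (∑ S' ∈ (H.map (emb X M i)).powerset, if S.map (emb X M i) = S' then g S else 0)
        = if S ⊆ H then g S else 0 := by
    intro S
    rw [Finset.sum_ite_eq]
    simp only [mem_powerset, Finset.map_subset_map]
  rw [Finset.sum_congr rfl (fun S _ => h2 S), ← Finset.sum_filter]
  apply le_of_eq
  apply Finset.sum_congr _ (fun _ _ => rfl)
  ext S
  simp only [mem_powerset, mem_filter, mem_univ, true_and]

theorem scale_pos0 (F : Finset (Finset X)) (p : X → ℝ) (hp : ∀ x, 0 < p x)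
    (g : Finset X → ℝ) (hg : ∀ S, 0 ≤ g S) (hg0 : g ∅ = 0)
    (hF : ∀ H ∈ F, 1 ≤ ∑ S ∈ H.powerset, g S) :
    ∃ G : Finset (Finset X), (∀ H ∈ F, ∃ S ∈ G, S ⊆ H) ∧
      ∑ S ∈ G, ∏ x ∈ S, (p x / 1472) ≤ ∑ S : Finset X, g S * ∏ x ∈ S, p x := by
  classical
  have hnn : ∀ S : Finset X, 0 ≤ g S * ∏ x ∈ S, p x :=
    fun S => mul_nonneg (hg S) (Finset.prod_nonneg (fun x _ => (hp x).le))
  set ε := ∑ S : Finset X, g S * ∏ x ∈ S, p x with hε
  rcases F.eq_empty_or_nonempty with rfl | ⟨H0, hH0⟩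
  · refine ⟨∅, by simp, ?_⟩
    rw [Finset.sum_empty]
    exact Finset.sum_nonneg (fun S _ => hnn S)
  by_cases hε1 : 1 ≤ ε
  · exact ⟨{∅}, fun H _ => ⟨∅, mem_singleton_self _, Finset.empty_subset _⟩, by simpa using hε1⟩
  push Not at hε1
  have hεpos : 0 < ε := by
    have h1 := hF H0 hH0
    obtain ⟨S, hS, hgS⟩ : ∃ S ∈ H0.powerset, 0 < g S := by
      by_contra hcon
      push Not at hcon
      have := Finset.sum_nonpos hcon
      linarith only [h1, this]
    have h2 : 0 < g S * ∏ x ∈ S, p x :=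
      mul_pos hgS (Finset.prod_pos (fun x _ => hp x))
    have h3 := Finset.single_le_sum (f := fun S : Finset X => g S * ∏ x ∈ S, p x)
      (fun S _ => hnn S) (mem_univ S)
    exact h2.trans_le h3
  by_contra hcon
  push Not at hcon
  set M : ℕ := ⌊1 / ε⌋₊ with hM
  have hM1 : (M : ℝ) * ε ≤ 1 := by
    have : (M : ℝ) ≤ 1 / ε := Nat.floor_le (by positivity)
    rwa [le_div_iff₀ hεpos] at this
  have hM2 : 1 / 2 ≤ (M : ℝ) * ε := by
    have h1 : 1 / ε < (M : ℝ) + 1 := Nat.lt_floor_add_one _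
    rw [div_lt_iff₀ hεpos] at h1
    have h2 : (1 : ℝ) ≤ M := by
      have : 1 ≤ M := by
        rw [hM]
        apply Nat.le_floor
        rw [le_div_iff₀ hεpos]
        push_cast
        linarith only [hε1]
      exact_mod_cast this
    nlinarith only [h1, h2, hεpos, hε1]
  have hcore := core ((univ : Finset (Fin M)).biUnion (fun i => F.image (fun H => H.map (emb X M i))))
    (gcop M g)
    (fun S' => Finset.sum_nonneg (fun i _ => Finset.sum_nonneg (fun S _ => by
      split_ifs; exacts [hg S, le_rfl])))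
    (by
      intro H' hH'
      rw [mem_biUnion] at hH'
      obtain ⟨i, _, hi⟩ := hH'
      rw [mem_image] at hi
      obtain ⟨H, hH, rfl⟩ := hi
      exact (hF H hH).trans (gcop_cover M g hg i H))
    (fun x => p x.2 / 1472) (fun x => by have := hp x.2; positivity)
    (by
      intro G' hG'
      exact copies_cost M F (fun x => p x / 1472) (fun x => by have := hp x; positivity) ε
        (fun G hG => (hcon G hG).le) hM2 G' hG')
  rw [gcop_cost] at hcore
  have h1 : ∀ i : Fin M, ∑ S : Finset X, g S * ∏ x ∈ S.map (emb X M i), (1280 / 3 * (p x.2 / 1472))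
      ≤ 1280 / 4416 * ε := by
    intro i
    rw [hε, Finset.mul_sum]
    apply Finset.sum_le_sum
    intro S _
    rw [Finset.prod_map]
    simp only [emb_apply]
    rcases S.eq_empty_or_nonempty with rfl | hS
    · simp [hg0]
    · have h2 : ∏ x ∈ S, (1280 / 3 * (p x / 1472)) = (1280 / 4416) ^ S.card * ∏ x ∈ S, p x := by
        rw [← Finset.prod_const, ← Finset.prod_mul_distrib]
        apply Finset.prod_congr rfl
        intro x _
        ring
      rw [h2]
      have h3 : (1280 / 4416 : ℝ) ^ S.card ≤ (1280 / 4416) ^ 1 :=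
        pow_le_pow_of_le_one (by norm_num) (by norm_num) (Finset.card_pos.mpr hS)
      rw [pow_one] at h3
      have h4 := mul_le_mul_of_nonneg_left h3 (hnn S)
      linarith only [h4]
  have h2 := Finset.sum_le_sum (fun i (_ : i ∈ (univ : Finset (Fin M))) => h1 i)
  rw [Finset.sum_const, Finset.card_univ, Fintype.card_fin, nsmul_eq_mul] at h2
  have h3 : (M : ℝ) * (1280 / 4416 * ε) = 1280 / 4416 * (M * ε) := by ring
  rw [h3] at h2
  have h4 := hcore.trans h2
  linarith only [h4, hM1]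

theorem scale_pos (F : Finset (Finset X)) (p : X → ℝ) (hp : ∀ x, 0 < p x)
    (g : Finset X → ℝ) (hg : ∀ S, 0 ≤ g S)
    (hF : ∀ H ∈ F, 1 ≤ ∑ S ∈ H.powerset, g S) :
    ∃ G : Finset (Finset X), (∀ H ∈ F, ∃ S ∈ G, S ⊆ H) ∧
      ∑ S ∈ G, ∏ x ∈ S, (p x / 1472) ≤ ∑ S : Finset X, g S * ∏ x ∈ S, p x := by
  classical
  have hnn : ∀ S : Finset X, 0 ≤ g S * ∏ x ∈ S, p x :=
    fun S => mul_nonneg (hg S) (Finset.prod_nonneg (fun x _ => (hp x).le))
  set t := ∑ S : Finset X, g S * ∏ x ∈ S, p x with ht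
  by_cases ht1 : 1 ≤ t
  · exact ⟨{∅}, fun H _ => ⟨∅, mem_singleton_self _, Finset.empty_subset _⟩, by simpa using ht1⟩
  push Not at ht1
  have hsplit : t = g ∅ + ∑ S ∈ univ.erase (∅ : Finset X), g S * ∏ x ∈ S, p x := by
    rw [ht, ← Finset.add_sum_erase _ _ (mem_univ (∅ : Finset X))]
    simp only [prod_empty, mul_one]
  have hrest : 0 ≤ ∑ S ∈ univ.erase (∅ : Finset X), g S * ∏ x ∈ S, p x :=
    Finset.sum_nonneg (fun S _ => hnn S)
  have hγ0 : 0 ≤ g ∅ := hg ∅
  have h1γ : 0 < 1 - g ∅ := by linarith only [ht1, hsplit, hrest]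
  obtain ⟨G, hG, hcost⟩ := scale_pos0 F p hp (fun S => if S = ∅ then 0 else g S / (1 - g ∅))
    (by
      intro S
      split_ifs
      · exact le_rfl
      · exact div_nonneg (hg S) h1γ.le)
    (by simp)
    (by
      intro H hH
      have h1 := hF H hH
      have hmem : (∅ : Finset X) ∈ H.powerset := by simp
      rw [← Finset.add_sum_erase _ _ hmem] at h1
      rw [← Finset.add_sum_erase _ _ hmem]
      have h2 : ∑ S ∈ H.powerset.erase ∅, (if S = ∅ then 0 else g S / (1 - g ∅))
          = (∑ S ∈ H.powerset.erase ∅, g S) / (1 - g ∅) := by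
        rw [Finset.sum_div]
        apply Finset.sum_congr rfl
        intro S hS
        rw [if_neg (Finset.ne_of_mem_erase hS)]
      rw [h2]
      simp only [if_true, zero_add]
      rw [le_div_iff₀ h1γ]
      linarith only [h1])
  refine ⟨G, hG, hcost.trans ?_⟩
  rw [← Finset.add_sum_erase _ _ (mem_univ (∅ : Finset X))]
  have h3 : ∑ S ∈ univ.erase (∅ : Finset X),
      (if S = ∅ then 0 else g S / (1 - g ∅)) * ∏ x ∈ S, p x
      = (∑ S ∈ univ.erase (∅ : Finset X), g S * ∏ x ∈ S, p x) / (1 - g ∅) := by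
    rw [Finset.sum_div]
    apply Finset.sum_congr rfl
    intro S hS
    rw [if_neg (Finset.ne_of_mem_erase hS)]
    ring
  rw [h3]
  simp only [if_true, zero_mul, zero_add]
  rw [div_le_iff₀ h1γ]
  nlinarith only [hsplit, ht1, hγ0, hrest]

/-- The rescaled integrality gap of the covering problem, finite ground sets. -/
theorem scale_nonneg (F : Set (Finset X)) (p : X → ℝ) (hp : ∀ x, 0 ≤ p x)
    (g : Finset X → ℝ) (hg : ∀ S, 0 ≤ g S)
    (hF : ∀ H ∈ F, 1 ≤ ∑ S ∈ H.powerset, g S) :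
    ∃ G : Finset (Finset X), Covers G F ∧
      ∑ S ∈ G, ∏ x ∈ S, (p x / 1472) ≤ ∑ S : Finset X, g S * ∏ x ∈ S, p x := by
  classical
  set 𝒞 : Finset (Finset (Finset X)) := univ.filter (fun G => Covers G F) with h𝒞
  have hne : 𝒞.Nonempty := by
    refine ⟨{∅}, ?_⟩
    rw [h𝒞, mem_filter]
    exact ⟨mem_univ _, fun H _ => ⟨∅, mem_singleton_self _, Finset.empty_subset _⟩⟩
  obtain ⟨G0, hG0, hmin⟩ := 𝒞.exists_min_image (fun G => ∑ S ∈ G, ∏ x ∈ S, (p x / 1472)) hne
  rw [h𝒞, mem_filter] at hG0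
  refine ⟨G0, hG0.2, ?_⟩
  have hstep : ∀ δ : ℝ, 0 < δ → ∑ S ∈ G0, ∏ x ∈ S, (p x / 1472)
      ≤ ∑ S : Finset X, g S * ∏ x ∈ S, (p x + δ) := by
    intro δ hδ
    obtain ⟨G, hG, hcost⟩ := scale_pos F.toFinset (fun x => p x + δ)
      (fun x => by have := hp x; positivity) g hg
      (fun H hH => hF H (Set.mem_toFinset.mp hH))
    refine (hmin G ?_).trans (le_trans ?_ hcost)
    · rw [h𝒞, mem_filter]
      exact ⟨mem_univ _, fun H hH => hG H (Set.mem_toFinset.mpr hH)⟩
    · apply Finset.sum_le_sum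
      intro S _
      apply Finset.prod_le_prod
      · intro x _
        have := hp x
        positivity
      · intro x _
        apply div_le_div_of_nonneg_right _ (by norm_num)
        linarith only [hδ]
  have hcont : Filter.Tendsto (fun δ : ℝ => ∑ S : Finset X, g S * ∏ x ∈ S, (p x + δ))
      (nhdsWithin 0 (Set.Ioi 0)) (nhds (∑ S : Finset X, g S * ∏ x ∈ S, (p x + 0))) := by
    have : Continuous (fun δ : ℝ => ∑ S : Finset X, g S * ∏ x ∈ S, (p x + δ)) := by
      fun_prop
    exact (this.tendsto 0).mono_left nhdsWithin_le_nhds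
  simp only [add_zero] at hcont
  apply ge_of_tendsto hcont
  filter_upwards [self_mem_nhdsWithin] with δ hδ
  exact hstep δ hδ

end Vale.Agent.P034.H953
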