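import Vale.Agent.P034.H953.Levels

set_option linter.all false

namespace Vale.Agent.P034.H953

open Finset Vale.Agent.P034

variable {X : Type*} [Fintype X] [DecidableEq X]

/-- Probability of level `j` for a point of parameter `q` whose last level is `J`. -/
noncomputable def lv (q : ℝ) (J j : ℕ) : ℝ :=
  if j < J then 160 * 16 ^ j * q else 1 - ∑ i ∈ range J, 160 * 16 ^ i * q

theorem sum_lv (q : ℝ) (J : ℕ) : ∑ j ∈ range (J + 1), lv q J j = 1 := by
  rw [Finset.sum_range_succ]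
  have h1 : ∑ j ∈ range J, lv q J j = ∑ i ∈ range J, 160 * 16 ^ i * q := by
    apply Finset.sum_congr rfl
    intro j hj
    rw [mem_range] at hj
    simp [lv, hj]
  rw [h1]
  simp [lv]

theorem lv_nonneg (q : ℝ) (hq : 0 ≤ q) (J : ℕ) (hJ : ∑ i ∈ range J, 160 * 16 ^ i * q ≤ 1)
    (j : ℕ) : 0 ≤ lv q J j := by
  unfold lv
  split_ifs
  · positivity
  · linarith only [hJ]

theorem lv_mul_wd (q : ℝ) (J j : ℕ) (hj : j < J) : lv q J j * wd j = q := by
  unfold lv wd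
  rw [if_pos hj]
  field_simp

/-- the number of levels -/
theorem exists_J (q : ℝ) (hq : 0 < q) :
    ∃ J : ℕ, ∑ i ∈ range J, 160 * 16 ^ i * q ≤ 1 ∧
      1 ≤ ∑ i ∈ range (J + 1), 160 * 16 ^ i * q := by
  have hex : ∃ J : ℕ, 1 ≤ ∑ i ∈ range (J + 1), 160 * 16 ^ i * q := by
    obtain ⟨n, hn⟩ := pow_unbounded_of_one_lt (1 / q) (show (1 : ℝ) < 16 by norm_num)
    refine ⟨n, ?_⟩
    rw [div_lt_iff₀ hq] at hn
    rw [Finset.sum_range_succ]
    have h0 : 0 ≤ ∑ i ∈ range n, 160 * 16 ^ i * q :=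
      Finset.sum_nonneg (fun i _ => by positivity)
    nlinarith only [hn, h0]
  classical
  refine ⟨Nat.find hex, ?_, Nat.find_spec hex⟩
  rcases Nat.eq_zero_or_pos (Nat.find hex) with h0 | h0
  · rw [h0]; simp
  · have hlt := Nat.find_min hex (Nat.sub_lt h0 one_pos)
    push Not at hlt
    rw [Nat.sub_add_cancel (show 1 ≤ Nat.find hex from h0)] at hlt
    exact hlt.le

theorem lv_le (q : ℝ) (J j : ℕ) (hj : j ≤ J)
    (hJ : 1 ≤ ∑ i ∈ range (J + 1), 160 * 16 ^ i * q) : lv q J j ≤ 160 * 16 ^ j * q := by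
  unfold lv
  split_ifs with h
  · exact le_rfl
  · have : j = J := by omega
    subst this
    rw [Finset.sum_range_succ] at hJ
    linarith only [hJ]

theorem exp_bound (q : ℝ) (hq : 0 < q) (J : ℕ)
    (hJ : 1 ≤ ∑ i ∈ range (J + 1), 160 * 16 ^ i * q) :
    ∑ j ∈ range (J + 1), lv q J j * (1 / 64 : ℝ) ^ j ≤ 640 / 3 * q := by
  have h1 : ∀ j ∈ range (J + 1), lv q J j * (1 / 64 : ℝ) ^ j ≤ 160 * q * (1 / 4) ^ j := by
    intro j hj
    rw [mem_range] at hj
    have h2 := lv_le q J j (by omega) hJ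
    have h3 : (16 : ℝ) ^ j * (1 / 64) ^ j = (1 / 4) ^ j := by
      rw [← mul_pow]; norm_num
    calc lv q J j * (1 / 64 : ℝ) ^ j ≤ (160 * 16 ^ j * q) * (1 / 64) ^ j :=
          mul_le_mul_of_nonneg_right h2 (by positivity)
      _ = 160 * q * (16 ^ j * (1 / 64) ^ j) := by ring
      _ = _ := by rw [h3]
  refine (Finset.sum_le_sum h1).trans ?_
  rw [← Finset.mul_sum]
  have := geom_quarter_le (J + 1)
  nlinarith only [hq, this]

theorem inner_sum (q : X → ℝ) (hq : ∀ x, 0 ≤ q x) (J : X → ℕ)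
    (hJ : ∀ x, ∑ i ∈ range (J x), 160 * 16 ^ i * q x ≤ 1)
    (ψ : X → ℕ) (T : Finset X) (hT : ∀ x ∈ T, ψ x < J x)
    (S : Finset (X → ℕ))
    (hS : ∀ φ ∈ S, (∀ x, ψ x ≤ φ x) ∧ (∀ x, φ x ≤ J x) ∧ diffSet φ ψ = T) :
    ∑ φ ∈ S, (∏ x, lv (q x) (J x) (φ x)) * ∏ x ∈ diffSet φ ψ, q x
      ≤ (∏ x, lv (q x) (J x) (ψ x)) * ∏ x ∈ T, wd (ψ x) := by
  have hlv : ∀ x j, 0 ≤ lv (q x) (J x) j := fun x => lv_nonneg (q x) (hq x) (J x) (hJ x)
  have h1 : ∑ φ ∈ S, (∏ x, lv (q x) (J x) (φ x)) * ∏ x ∈ diffSet φ ψ, q x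
      = (∑ φ ∈ S, ∏ x, lv (q x) (J x) (φ x)) * ∏ x ∈ T, q x := by
    rw [Finset.sum_mul]
    apply Finset.sum_congr rfl
    intro φ hφ
    rw [(hS φ hφ).2.2]
  have h2 : ∑ φ ∈ S, ∏ x, lv (q x) (J x) (φ x) ≤
      ∑ φ ∈ Fintype.piFinset (fun x => if x ∈ T then range (J x + 1) else {ψ x}),
        ∏ x, lv (q x) (J x) (φ x) := by
    apply Finset.sum_le_sum_of_subset_of_nonneg
    · intro φ hφ
      obtain ⟨a, b, c⟩ := hS φ hφ
      rw [Fintype.mem_piFinset]
      intro x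
      split_ifs with hx
      · rw [mem_range]; have := b x; omega
      · rw [mem_singleton]
        have : ¬ ψ x < φ x := by
          rw [← mem_diffSet, c]; exact hx
        have := a x
        omega
    · intro φ _ _
      exact Finset.prod_nonneg (fun x _ => hlv x _)
  have h3 : ∑ φ ∈ Fintype.piFinset (fun x => if x ∈ T then range (J x + 1) else {ψ x}),
        ∏ x, lv (q x) (J x) (φ x) = ∏ x, (if x ∈ T then 1 else lv (q x) (J x) (ψ x)) := by
    rw [← Finset.prod_univ_sum (fun x => if x ∈ T then range (J x + 1) else {ψ x})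
      (fun x j => lv (q x) (J x) j)]
    apply Finset.prod_congr rfl
    intro x _
    split_ifs
    · exact sum_lv (q x) (J x)
    · simp
  have h4 : (∏ x, (if x ∈ T then 1 else lv (q x) (J x) (ψ x))) * ∏ x ∈ T, q x
      = (∏ x, lv (q x) (J x) (ψ x)) * ∏ x ∈ T, wd (ψ x) := by
    have h5 : ∏ x ∈ T, q x = ∏ x, (if x ∈ T then q x else 1) := by
      rw [Finset.prod_ite_mem]; simp only [univ_inter]
    have h6 : ∏ x ∈ T, wd (ψ x) = ∏ x, (if x ∈ T then wd (ψ x) else 1) := by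
      rw [Finset.prod_ite_mem]; simp only [univ_inter]
    rw [h5, h6, ← Finset.prod_mul_distrib, ← Finset.prod_mul_distrib]
    apply Finset.prod_congr rfl
    intro x _
    split_ifs with hx
    · rw [lv_mul_wd (q x) (J x) _ (hT x hx), one_mul]
    · rfl
  rw [h1]
  calc (∑ φ ∈ S, ∏ x, lv (q x) (J x) (φ x)) * ∏ x ∈ T, q x
      ≤ (∏ x, (if x ∈ T then 1 else lv (q x) (J x) (ψ x))) * ∏ x ∈ T, q x := by
        apply mul_le_mul_of_nonneg_right (h2.trans h3.le)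
          (Finset.prod_nonneg (fun x _ => hq x))
    _ = _ := h4

open Classical in
noncomputable def sel (J : ℕ) (F : Finset (Finset X)) (lam : Finset X → X → ℝ) (ψ : X → ℕ)
    (t : ℕ → ℕ) : X → ℝ :=
  if h : ∃ H' ∈ F, AB J (lam H') ψ (fun j => ∑ i ∈ range (j + 1), t i) ≤ 1 / 12 then
    lam h.choose else 0

open Classical in
noncomputable def NN (J : ℕ) (F : Finset (Finset X)) (lam : Finset X → X → ℝ) (ψ : X → ℕ)
    (t : ℕ → ℕ) : Finset X :=
  univ.filter (fun x => 0 < ∑ i ∈ range (ψ x + 1), t i ∧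
    (topSum (sel J F lam ψ t) (Cd (ψ x) * ∑ i ∈ range (ψ x + 1), t i)
      - topSum (sel J F lam ψ t) (Cd (ψ x) * ((∑ i ∈ range (ψ x + 1), t i) - 1))) / Cd (ψ x)
      < sel J F lam ψ t x)

theorem NN_card (J : ℕ) (F : Finset (Finset X)) (lam : Finset X → X → ℝ) (ψ : X → ℕ)
    (t : ℕ → ℕ) (j : ℕ) :
    ((NN J F lam ψ t).filter (fun x => ψ x = j)).card ≤ Cd j * ∑ i ∈ range (j + 1), t i := by
  rcases Nat.eq_zero_or_pos (∑ i ∈ range (j + 1), t i) with h0 | h0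
  · have : (NN J F lam ψ t).filter (fun x => ψ x = j) = ∅ := by
      rw [Finset.filter_eq_empty_iff]
      intro x hx hxj
      unfold NN at hx
      rw [mem_filter, hxj] at hx
      omega
    rw [this]; simp
  · apply card_gt_le (sel J F lam ψ t) (Cd j) _ (Cd_pos j) h0
    intro x hx
    rw [mem_filter] at hx
    obtain ⟨hx, hxj⟩ := hx
    unfold NN at hx
    rw [mem_filter, hxj] at hx
    exact hx.2.2

theorem exists_valid' (J : ℕ) (F : Finset (Finset X)) (lam : Finset X → X → ℝ)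
    (hl : ∀ H ∈ F, ∀ x, 0 ≤ lam H x) (hsum : ∀ H ∈ F, ∑ x, lam H x ≤ 1)
    (hsupp : ∀ H ∈ F, ∀ x, x ∉ H → lam H x = 0) (φ : X → ℕ) (hφ : ∀ x, φ x ≤ J)
    (hbad : ∀ H ∈ F, 1 / 12 < ∑ x, lam H x * φ x)
    (H : Finset X) (hH : H ∈ F) :
    ∃ ψ : X → ℕ, (∀ x, ψ x ≤ φ x) ∧ diffSet φ ψ ⊆ H ∧ (diffSet φ ψ).Nonempty ∧
      diffSet φ ψ ⊆ NN J F lam ψ (prof ψ (diffSet φ ψ)) := by
  obtain ⟨ψ, h1, h2, h3, h4⟩ := exists_valid J F lam hl hsum hsupp φ hφ H hH
  have hcnt : (fun j => ∑ i ∈ range (j + 1), prof ψ (diffSet φ ψ) i) = cnt φ ψ := by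
    funext j; rw [cnt_eq]
  refine ⟨ψ, h1, h2, ?_, ?_⟩
  · by_contra hne
    rw [Finset.not_nonempty_iff_eq_empty] at hne
    obtain ⟨H', hH', hA⟩ := h3
    have hψφ : ∀ x, ψ x = φ x := by
      intro x
      have : ¬ ψ x < φ x := by
        rw [← mem_diffSet, hne]; simp
      have := h1 x
      omega
    have hA2 : ∑ x, lam H' x * φ x ≤ AB J (lam H') ψ (cnt φ ψ) := by
      unfold AB
      have e1 : ∑ x, lam H' x * φ x = ∑ x, lam H' x * ψ x := by
        apply Finset.sum_congr rfl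
        intro x _
        rw [hψφ x]
      rw [e1]
      have e2 : 0 ≤ ∑ j ∈ range J, topSum (lam H') (Cd j * cnt φ ψ j) / (Cd j : ℝ) := by
        apply Finset.sum_nonneg
        intro j _
        exact div_nonneg (topSum_nonneg _ _) (by positivity)
      linarith only [e2]
    have := hbad H' hH'
    linarith only [hA, hA2, this]
  · have hex : ∃ H' ∈ F, AB J (lam H') ψ
        (fun j => ∑ i ∈ range (j + 1), prof ψ (diffSet φ ψ) i) ≤ 1 / 12 := by
      rw [hcnt]; exact h3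
    obtain ⟨H'', hHF, hHA, hsel⟩ : ∃ H'' ∈ F, AB J (lam H'') ψ (cnt φ ψ) ≤ 1 / 12 ∧
        sel J F lam ψ (prof ψ (diffSet φ ψ)) = lam H'' := by
      refine ⟨hex.choose, hex.choose_spec.1, ?_, ?_⟩
      · exact (congrArg (AB J (lam hex.choose) ψ) hcnt).ge.trans hex.choose_spec.2
      · unfold sel
        rw [dif_pos hex]
    intro x hx
    rw [mem_diffSet] at hx
    have h5 := h4 _ hHF hHA x hx
    unfold NN
    rw [mem_filter]
    refine ⟨mem_univ _, ?_, ?_⟩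
    · rw [← cnt_eq]
      unfold cnt
      apply Finset.card_pos.mpr
      exact ⟨x, by simp only [mem_filter, mem_univ, hx, Std.le_refl, and_self]⟩
    · rw [← cnt_eq, hsel]
      exact h5

theorem bad_prob (q : X → ℝ) (hq : ∀ x, 0 < q x) (J : X → ℕ)
    (hJ : ∀ x, ∑ i ∈ range (J x), 160 * 16 ^ i * q x ≤ 1)
    (F : Finset (Finset X)) (lam : Finset X → X → ℝ)
    (hl : ∀ H ∈ F, ∀ x, 0 ≤ lam H x) (hsum : ∀ H ∈ F, ∑ x, lam H x ≤ 1)
    (hsupp : ∀ H ∈ F, ∀ x, x ∉ H → lam H x = 0)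
    (hns : ∀ G : Finset (Finset X), (∀ H ∈ F, ∃ S ∈ G, S ⊆ H) →
      1 / 2 ≤ ∑ S ∈ G, ∏ x ∈ S, q x)
    (B : Finset (X → ℕ))
    (hB : ∀ φ ∈ B, (∀ x, φ x ≤ J x) ∧ ∀ H ∈ F, 1 / 12 < ∑ x, lam H x * φ x) :
    ∑ φ ∈ B, ∏ x, lv (q x) (J x) (φ x) ≤ 21 / 50 := by
  classical
  have hlv : ∀ x j, 0 ≤ lv (q x) (J x) j :=
    fun x => lv_nonneg (q x) (hq x).le (J x) (hJ x)
  set J0 : ℕ := univ.sup J with hJ0
  have hJJ0 : ∀ x, J x ≤ J0 := fun x => Finset.le_sup (f := J) (mem_univ x)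
  set Ω : Finset (X → ℕ) := Fintype.piFinset (fun x => range (J x + 1)) with hΩ
  have hΩmem : ∀ φ : X → ℕ, φ ∈ Ω ↔ ∀ x, φ x ≤ J x := by
    intro φ
    rw [hΩ, Fintype.mem_piFinset]
    constructor
    · intro h x; have := h x; rw [mem_range] at this; omega
    · intro h x; have := h x; rw [mem_range]; omega
  let V : (X → ℕ) → (X → ℕ) → Prop := fun φ ψ =>
    (∀ x, ψ x ≤ φ x) ∧ (diffSet φ ψ).Nonempty ∧
      diffSet φ ψ ⊆ NN J0 F lam ψ (prof ψ (diffSet φ ψ))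
  have hcost : ∀ φ ∈ B, 1 / 2 ≤ ∑ ψ ∈ Ω.filter (fun ψ => V φ ψ), ∏ x ∈ diffSet φ ψ, q x := by
    intro φ hφ
    obtain ⟨hφJ, hbad⟩ := hB φ hφ
    have hcov := hns ((Ω.filter (fun ψ => V φ ψ)).image (fun ψ => diffSet φ ψ)) (by
      intro H hH
      obtain ⟨ψ, h1, h2, h3, h4⟩ := exists_valid' J0 F lam hl hsum hsupp φ
        (fun x => (hφJ x).trans (hJJ0 x)) hbad H hH
      refine ⟨diffSet φ ψ, ?_, h2⟩
      rw [mem_image]
      refine ⟨ψ, ?_, rfl⟩
      rw [mem_filter, hΩmem]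
      exact ⟨fun x => (h1 x).trans (hφJ x), h1, h3, h4⟩)
    refine hcov.trans ?_
    rw [← Finset.sum_fiberwise_of_maps_to (g := fun ψ => diffSet φ ψ)
      (t := (Ω.filter (fun ψ => V φ ψ)).image (fun ψ => diffSet φ ψ))
      (fun ψ hψ => mem_image_of_mem _ hψ)]
    apply Finset.sum_le_sum
    intro S hS
    rw [mem_image] at hS
    obtain ⟨ψ, hψ, rfl⟩ := hS
    have hm : ψ ∈ (Ω.filter (fun ψ => V φ ψ)).filter
        (fun ψ' => diffSet φ ψ' = diffSet φ ψ) := by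
      rw [mem_filter]; exact ⟨hψ, rfl⟩
    exact Finset.single_le_sum (f := fun ψ' => ∏ x ∈ diffSet φ ψ', q x)
      (fun i _ => Finset.prod_nonneg (fun x _ => (hq x).le)) hm
  have h1 : (∑ φ ∈ B, ∏ x, lv (q x) (J x) (φ x)) * (1 / 2) ≤
      ∑ φ ∈ Ω, ∑ ψ ∈ Ω.filter (fun ψ => V φ ψ),
        (∏ x, lv (q x) (J x) (φ x)) * ∏ x ∈ diffSet φ ψ, q x := by
    rw [Finset.sum_mul]
    calc ∑ φ ∈ B, (∏ x, lv (q x) (J x) (φ x)) * (1 / 2)
        ≤ ∑ φ ∈ B, ∑ ψ ∈ Ω.filter (fun ψ => V φ ψ),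
            (∏ x, lv (q x) (J x) (φ x)) * ∏ x ∈ diffSet φ ψ, q x := by
          apply Finset.sum_le_sum
          intro φ hφ
          rw [← Finset.mul_sum]
          exact mul_le_mul_of_nonneg_left (hcost φ hφ)
            (Finset.prod_nonneg (fun x _ => hlv x _))
      _ ≤ _ := by
          apply Finset.sum_le_sum_of_subset_of_nonneg
          · intro φ hφ
            rw [hΩmem]
            exact (hB φ hφ).1
          · intro φ _ _
            apply Finset.sum_nonneg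
            intro ψ _
            exact mul_nonneg (Finset.prod_nonneg (fun x _ => hlv x _))
              (Finset.prod_nonneg (fun x _ => (hq x).le))
  have h2 : ∑ φ ∈ Ω, ∑ ψ ∈ Ω.filter (fun ψ => V φ ψ),
        (∏ x, lv (q x) (J x) (φ x)) * ∏ x ∈ diffSet φ ψ, q x
      = ∑ ψ ∈ Ω, ∑ φ ∈ Ω.filter (fun φ => V φ ψ),
        (∏ x, lv (q x) (J x) (φ x)) * ∏ x ∈ diffSet φ ψ, q x := by
    apply Finset.sum_comm'
    intro φ ψ
    simp only [mem_filter]
    tauto
  have h3 : ∀ ψ ∈ Ω, ∑ φ ∈ Ω.filter (fun φ => V φ ψ),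
        (∏ x, lv (q x) (J x) (φ x)) * ∏ x ∈ diffSet φ ψ, q x
        ≤ (∏ x, lv (q x) (J x) (ψ x)) * (21 / 100) := by
    intro ψ _
    have hc := count_bound J0 ψ (NN J0 F lam ψ) (fun t j _ => NN_card J0 F lam ψ t j)
    set W := univ.filter (fun T : Finset X => T.Nonempty ∧ (∀ x ∈ T, ψ x < J x) ∧
      T ⊆ NN J0 F lam ψ (prof ψ T)) with hW
    have hc' : ∑ T ∈ W, ∏ x ∈ T, wd (ψ x) ≤ 21 / 100 := by
      refine le_trans (Finset.sum_le_sum_of_subset_of_nonneg ?_ ?_) hc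
      · intro T hT
        rw [hW, mem_filter] at hT
        rw [mem_filter]
        exact ⟨hT.1, hT.2.1, fun x hx => (hT.2.2.1 x hx).trans_le (hJJ0 x), hT.2.2.2⟩
      · intro T _ _
        exact Finset.prod_nonneg (fun x _ => (wd_pos _).le)
    rw [← Finset.sum_fiberwise_of_maps_to (g := fun φ => diffSet φ ψ) (t := W)]
    · calc ∑ T ∈ W, ∑ φ ∈ (Ω.filter (fun φ => V φ ψ)).filter (fun φ => diffSet φ ψ = T),
            (∏ x, lv (q x) (J x) (φ x)) * ∏ x ∈ diffSet φ ψ, q x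
          ≤ ∑ T ∈ W, (∏ x, lv (q x) (J x) (ψ x)) * ∏ x ∈ T, wd (ψ x) := by
            apply Finset.sum_le_sum
            intro T hT
            rw [hW, mem_filter] at hT
            apply inner_sum q (fun x => (hq x).le) J hJ ψ T hT.2.2.1
            intro φ hφ
            rw [mem_filter, mem_filter, hΩmem] at hφ
            exact ⟨hφ.1.2.1, hφ.1.1, hφ.2⟩
        _ = (∏ x, lv (q x) (J x) (ψ x)) * ∑ T ∈ W, ∏ x ∈ T, wd (ψ x) := by
            rw [Finset.mul_sum]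
        _ ≤ _ := mul_le_mul_of_nonneg_left hc' (Finset.prod_nonneg (fun x _ => hlv x _))
    · intro φ hφ
      rw [mem_filter, hΩmem] at hφ
      obtain ⟨hφJ, _, hne, hsub⟩ := hφ
      rw [hW, mem_filter]
      refine ⟨mem_univ _, hne, ?_, hsub⟩
      intro x hx
      rw [mem_diffSet] at hx
      exact lt_of_lt_of_le hx (hφJ x)
  have h4 : ∑ ψ ∈ Ω, (∏ x, lv (q x) (J x) (ψ x)) * (21 / 100) = 21 / 100 := by
    rw [← Finset.sum_mul, hΩ,
      ← Finset.prod_univ_sum (fun x : X => range (J x + 1)) (fun x j => lv (q x) (J x) j)]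
    simp only [sum_lv, prod_const_one, one_mul]
  have h5 := Finset.sum_le_sum h3
  rw [h4] at h5
  rw [h2] at h1
  linarith only [h1, h5]

theorem prod_bound (φ : X → ℕ) (S : Finset X) :
    1 - 6 * ((∑ x ∈ S, (φ x : ℝ)) / S.card) ≤ ∏ x ∈ S, (2 * (1 / 64 : ℝ) ^ φ x) := by
  rw [Finset.prod_mul_distrib, Finset.prod_const, Finset.prod_pow_eq_pow_sum]
  set s := ∑ x ∈ S, φ x with hs
  have hcast : (∑ x ∈ S, (φ x : ℝ)) = (s : ℝ) := by rw [hs]; push_cast; rfl
  rw [hcast]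
  have h64 : (1 / 64 : ℝ) ^ s = (1 / 2) ^ (6 * s) := by
    rw [pow_mul]; norm_num
  rw [h64]
  rcases Nat.lt_or_ge S.card (6 * s) with h | h
  · have h1 : (1 : ℝ) ≤ 6 * ((s : ℝ) / S.card) ∨ S.card = 0 := by
      rcases Nat.eq_zero_or_pos S.card with h0 | h0
      · right; exact h0
      · left
        rw [← mul_div_assoc, le_div_iff₀ (by exact_mod_cast h0), one_mul]
        exact_mod_cast h.le
    rcases h1 with h1 | h1
    · have : (0 : ℝ) ≤ 2 ^ S.card * (1 / 2) ^ (6 * s) := by positivity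
      linarith only [h1, this]
    · rw [Finset.card_eq_zero] at h1
      rw [hs, h1] at h
      simp at h
  · have h1 : (1 : ℝ) ≤ 2 ^ S.card * (1 / 2) ^ (6 * s) := by
      have : (2 : ℝ) ^ S.card = 2 ^ (S.card - 6 * s) * 2 ^ (6 * s) := by
        rw [← pow_add]; congr 1; omega
      rw [this, mul_assoc, ← mul_pow]
      norm_num
      exact one_le_pow₀ (by norm_num)
    have h2 : (0 : ℝ) ≤ (s : ℝ) / S.card := by positivity
    linarith only [h1, h2]

theorem good_bound (g : Finset X → ℝ) (hg : ∀ S, 0 ≤ g S) (H : Finset X)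
    (hH : 1 ≤ ∑ S ∈ H.powerset, g S) (φ : X → ℕ)
    (hgood : ∑ x, lamOf g H x * φ x ≤ 1 / 12) :
    1 / 2 ≤ ∑ S : Finset X, g S * ∏ x ∈ S, (2 * (1 / 64 : ℝ) ^ φ x) := by
  rw [lamOf_sum, div_le_iff₀ (by linarith only [hH])] at hgood
  have h1 : ∑ S ∈ H.powerset, (g S - 6 * ∑ x ∈ S, g S / S.card * φ x) ≤
      ∑ S ∈ H.powerset, g S * ∏ x ∈ S, (2 * (1 / 64 : ℝ) ^ φ x) := by
    apply Finset.sum_le_sum
    intro S _
    have h2 := mul_le_mul_of_nonneg_left (prod_bound φ S) (hg S)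
    refine le_trans (le_of_eq ?_) h2
    rw [← Finset.mul_sum]
    ring
  rw [Finset.sum_sub_distrib, ← Finset.mul_sum] at h1
  have h3 : ∑ S ∈ H.powerset, g S * ∏ x ∈ S, (2 * (1 / 64 : ℝ) ^ φ x) ≤
      ∑ S : Finset X, g S * ∏ x ∈ S, (2 * (1 / 64 : ℝ) ^ φ x) := by
    apply Finset.sum_le_sum_of_subset_of_nonneg (Finset.subset_univ _)
    intro S _ _
    exact mul_nonneg (hg S) (Finset.prod_nonneg (fun x _ => by positivity))
  linarith only [hH, hgood, h1, h3]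

/-- If no cover of `F` costs less than `1/2` at the vector `q`, then every fractional cover costs
at least `29/100` at the vector `(1280/3) q`. -/
theorem core (F : Finset (Finset X)) (g : Finset X → ℝ) (hg : ∀ S, 0 ≤ g S)
    (hF : ∀ H ∈ F, 1 ≤ ∑ S ∈ H.powerset, g S) (q : X → ℝ) (hq : ∀ x, 0 < q x)
    (hns : ∀ G : Finset (Finset X), (∀ H ∈ F, ∃ S ∈ G, S ⊆ H) →
      1 / 2 ≤ ∑ S ∈ G, ∏ x ∈ S, q x) :
    29 / 100 ≤ ∑ S : Finset X, g S * ∏ x ∈ S, (1280 / 3 * q x) := by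
  classical
  choose J hJ hJ2 using fun x => exists_J (q x) (hq x)
  have hlv : ∀ x j, 0 ≤ lv (q x) (J x) j :=
    fun x => lv_nonneg (q x) (hq x).le (J x) (hJ x)
  set Ω : Finset (X → ℕ) := Fintype.piFinset (fun x => range (J x + 1)) with hΩ
  have hΩmem : ∀ φ : X → ℕ, φ ∈ Ω → ∀ x, φ x ≤ J x := by
    intro φ h x
    rw [hΩ, Fintype.mem_piFinset] at h
    have := h x
    rw [mem_range] at this
    omega
  have htot : ∑ φ ∈ Ω, ∏ x, lv (q x) (J x) (φ x) = 1 := by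
    rw [hΩ, ← Finset.prod_univ_sum (fun x : X => range (J x + 1))
      (fun x j => lv (q x) (J x) j)]
    simp only [sum_lv, prod_const_one]
  have hbad := bad_prob q hq J hJ F (lamOf g) (fun H _ x => lamOf_nonneg g hg H x)
    (fun H hH => lamOf_sum_le g hg H (hF H hH)) (fun H _ x hx => lamOf_supp g H x hx) hns
    (Ω.filter (fun φ => ∀ H ∈ F, 1 / 12 < ∑ x, lamOf g H x * φ x)) (by
      intro φ hφ
      rw [mem_filter] at hφ
      exact ⟨hΩmem φ hφ.1, hφ.2⟩)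
  have hgood : 29 / 50 ≤ ∑ φ ∈ Ω.filter (fun φ => ¬ ∀ H ∈ F, 1 / 12 < ∑ x, lamOf g H x * φ x),
      ∏ x, lv (q x) (J x) (φ x) := by
    have := Finset.sum_filter_add_sum_filter_not Ω
      (fun φ : X → ℕ => ∀ H ∈ F, 1 / 12 < ∑ x, lamOf g H x * φ x)
      (fun φ => ∏ x, lv (q x) (J x) (φ x))
    linarith only [htot, hbad, this]
  have hE1 : 29 / 100 ≤ ∑ φ ∈ Ω, (∏ x, lv (q x) (J x) (φ x)) *
      ∑ S : Finset X, g S * ∏ x ∈ S, (2 * (1 / 64 : ℝ) ^ φ x) := by
    calc (29 / 100 : ℝ) ≤ (∑ φ ∈ Ω.filter (fun φ => ¬ ∀ H ∈ F, 1 / 12 < ∑ x, lamOf g H x * φ x),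
          ∏ x, lv (q x) (J x) (φ x)) * (1 / 2) := by linarith only [hgood]
      _ ≤ ∑ φ ∈ Ω.filter (fun φ => ¬ ∀ H ∈ F, 1 / 12 < ∑ x, lamOf g H x * φ x),
          (∏ x, lv (q x) (J x) (φ x)) *
            ∑ S : Finset X, g S * ∏ x ∈ S, (2 * (1 / 64 : ℝ) ^ φ x) := by
        rw [Finset.sum_mul]
        apply Finset.sum_le_sum
        intro φ hφ
        rw [mem_filter] at hφ
        obtain ⟨_, hφ2⟩ := hφ
        push Not at hφ2
        obtain ⟨H, hH, hle⟩ := hφ2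
        apply mul_le_mul_of_nonneg_left _ (Finset.prod_nonneg (fun x _ => hlv x _))
        exact good_bound g hg H (hF H hH) φ hle
      _ ≤ _ := by
        apply Finset.sum_le_sum_of_subset_of_nonneg (Finset.filter_subset _ _)
        intro φ _ _
        apply mul_nonneg (Finset.prod_nonneg (fun x _ => hlv x _))
        apply Finset.sum_nonneg
        intro S _
        exact mul_nonneg (hg S) (Finset.prod_nonneg (fun x _ => by positivity))
  have hE2 : ∑ φ ∈ Ω, (∏ x, lv (q x) (J x) (φ x)) *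
      ∑ S : Finset X, g S * ∏ x ∈ S, (2 * (1 / 64 : ℝ) ^ φ x)
      = ∑ S : Finset X, g S *
        ∏ x ∈ S, (2 * ∑ j ∈ range (J x + 1), lv (q x) (J x) j * (1 / 64 : ℝ) ^ j) := by
    calc ∑ φ ∈ Ω, (∏ x, lv (q x) (J x) (φ x)) *
          ∑ S : Finset X, g S * ∏ x ∈ S, (2 * (1 / 64 : ℝ) ^ φ x)
        = ∑ φ ∈ Ω, ∑ S : Finset X, g S *
          ∏ x, (lv (q x) (J x) (φ x) * if x ∈ S then (2 * (1 / 64 : ℝ) ^ φ x) else 1) := by
          apply Finset.sum_congr rfl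
          intro φ _
          rw [Finset.mul_sum]
          apply Finset.sum_congr rfl
          intro S _
          have hprod : ∏ x, (lv (q x) (J x) (φ x) * if x ∈ S then (2 * (1 / 64 : ℝ) ^ φ x) else 1)
              = (∏ x, lv (q x) (J x) (φ x)) * ∏ x ∈ S, (2 * (1 / 64 : ℝ) ^ φ x) := by
            rw [Finset.prod_mul_distrib]
            congr 1
            rw [Finset.prod_ite_mem, Finset.univ_inter]
          rw [hprod]
          ring
      _ = ∑ S : Finset X, ∑ φ ∈ Ω, g S *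
          ∏ x, (lv (q x) (J x) (φ x) * if x ∈ S then (2 * (1 / 64 : ℝ) ^ φ x) else 1) :=
          Finset.sum_comm
      _ = _ := by
          apply Finset.sum_congr rfl
          intro S _
          rw [← Finset.mul_sum, hΩ,
            ← Finset.prod_univ_sum (fun x : X => range (J x + 1))
              (fun x j => lv (q x) (J x) j * if x ∈ S then (2 * (1 / 64 : ℝ) ^ j) else 1)]
          congr 1
          have h1 : ∀ x, ∑ j ∈ range (J x + 1),
              (lv (q x) (J x) j * if x ∈ S then (2 * (1 / 64 : ℝ) ^ j) else 1)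
              = if x ∈ S then
                  (2 * ∑ j ∈ range (J x + 1), lv (q x) (J x) j * (1 / 64 : ℝ) ^ j) else 1 := by
            intro x
            split_ifs
            · rw [Finset.mul_sum]
              apply Finset.sum_congr rfl
              intro j _
              ring
            · simp [sum_lv]
          rw [Finset.prod_congr rfl (fun x _ => h1 x), Finset.prod_ite_mem]
          simp only [univ_inter]
  rw [hE2] at hE1
  refine hE1.trans ?_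
  apply Finset.sum_le_sum
  intro S _
  apply mul_le_mul_of_nonneg_left _ (hg S)
  apply Finset.prod_le_prod
  · intro x _
    apply mul_nonneg (by norm_num)
    apply Finset.sum_nonneg
    intro j _
    exact mul_nonneg (hlv x j) (by positivity)
  · intro x _
    have := exp_bound (q x) (hq x) (J x) (hJ2 x)
    linarith only [this]

end Vale.Agent.P034.H953
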