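import Vale.Agent.P034.H953.Scale
import Mathlib.Analysis.LocallyConvex.Separation
import Mathlib.Topology.Algebra.Module.FiniteDimension

set_option linter.all false

namespace Vale.Agent.P034.H953

open Finset Vale.Agent.P034

variable {X : Type*} [Fintype X] [DecidableEq X]

/-- Linear programming duality for the rescaled covering problem. -/
theorem dual (F : Set (Finset X)) (p : X → ℝ) (hp : ∀ x, 0 ≤ p x) :
    ∃ (G : Finset (Finset X)) (μ : Finset X → ℝ), Covers G F ∧ (∀ H, 0 ≤ μ H) ∧
      (∀ H, H ∉ F → μ H = 0) ∧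
      (∀ S, ∑ H : Finset X, (if S ⊆ H then μ H else 0) ≤ ∏ x ∈ S, p x) ∧
      ∑ S ∈ G, ∏ x ∈ S, (p x / 1472) ≤ ∑ H : Finset X, μ H := by
  classical
  have hP : ∀ S : Finset X, 0 ≤ ∏ x ∈ S, p x := fun S => Finset.prod_nonneg (fun x _ => hp x)
  set 𝒞 : Finset (Finset (Finset X)) := univ.filter (fun G => Covers G F) with h𝒞
  have hne : 𝒞.Nonempty := by
    refine ⟨{∅}, ?_⟩
    rw [h𝒞, mem_filter]
    exact ⟨mem_univ _, fun H _ => ⟨∅, mem_singleton_self _, Finset.empty_subset _⟩⟩
  obtain ⟨G0, hG0, hmin⟩ := 𝒞.exists_min_image (fun G => ∑ S ∈ G, ∏ x ∈ S, (p x / 1472)) hne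
  rw [h𝒞, mem_filter] at hG0
  set t := ∑ S ∈ G0, ∏ x ∈ S, (p x / 1472) with ht
  rcases le_or_gt t 0 with ht0 | ht0
  · refine ⟨G0, fun _ => 0, hG0.2, fun _ => le_rfl, fun _ _ => rfl, ?_, ?_⟩
    · intro S
      simpa using hP S
    · rw [Finset.sum_const_zero]
      exact ht0
  have hFne : F.Nonempty := by
    by_contra hcon
    rw [Set.not_nonempty_iff_eq_empty] at hcon
    have h1 := hmin ∅ (by
      rw [h𝒞, mem_filter, hcon]
      exact ⟨mem_univ _, fun H hH => absurd hH (Set.notMem_empty H)⟩)
    simp only [sum_empty] at h1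
    linarith only [h1, ht0]
  set D : Set (Finset X → ℝ) := stdSimplex ℝ (Finset X) ∩ {ν | ∀ H, H ∉ F → ν H = 0} with hD
  have hDcomp : IsCompact D := by
    apply (isCompact_stdSimplex ℝ (Finset X)).inter_right
    have : {ν : Finset X → ℝ | ∀ H, H ∉ F → ν H = 0} = ⋂ H, ⋂ (_ : H ∉ F), {ν | ν H = 0} := by
      ext ν; simp only [Set.mem_ofPred_eq, Set.mem_iInter]
    rw [this]
    apply isClosed_iInter
    intro H
    apply isClosed_iInter
    intro _
    exact isClosed_eq (continuous_apply H) continuous_const
  have hDconv : Convex ℝ D := by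
    apply (convex_stdSimplex ℝ (Finset X)).inter
    intro a ha b hb s r _ _ _ H hH
    simp [ha H hH, hb H hH]
  let L : (Finset X → ℝ) →ₗ[ℝ] (Finset X → ℝ) :=
    { toFun := fun ν S => t * ∑ H : Finset X, (if S ⊆ H then ν H else 0)
      map_add' := by
        intro a b
        funext S
        simp only [Pi.add_apply]
        rw [← mul_add, ← Finset.sum_add_distrib]
        congr 1
        apply Finset.sum_congr rfl
        intro H _
        split_ifs <;> simp
      map_smul' := by
        intro c a
        funext S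
        simp only [Pi.smul_apply, smul_eq_mul, RingHom.id_apply]
        have h : (∑ H : Finset X, if S ⊆ H then c * a H else 0)
            = c * ∑ H : Finset X, (if S ⊆ H then a H else 0) := by
          rw [Finset.mul_sum]
          apply Finset.sum_congr rfl
          intro H _
          split_ifs <;> simp
        rw [h]
        ring }
  have hLapp : ∀ ν S, L ν S = t * ∑ H : Finset X, (if S ⊆ H then ν H else 0) := fun _ _ => rfl
  have hLcont : Continuous L := LinearMap.continuous_of_finiteDimensional L
  set B : Set (Finset X → ℝ) := {v | ∀ S, v S ≤ ∏ x ∈ S, p x} with hB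
  have hBclosed : IsClosed B := by
    have : B = ⋂ S, {v | v S ≤ ∏ x ∈ S, p x} := by
      ext v; simp only [hB, Set.mem_ofPred_eq, Set.mem_iInter]
    rw [this]
    apply isClosed_iInter
    intro S
    exact isClosed_le (continuous_apply S) continuous_const
  have hBconv : Convex ℝ B := by
    intro a ha b hb s r hs hr hsr S
    have h1 := mul_le_mul_of_nonneg_left (ha S) hs
    have h2 := mul_le_mul_of_nonneg_left (hb S) hr
    simp only [Pi.add_apply, Pi.smul_apply, smul_eq_mul]
    have h3 : s * ∏ x ∈ S, p x + r * ∏ x ∈ S, p x = ∏ x ∈ S, p x := by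
      rw [← add_mul, hsr, one_mul]
    linarith only [h1, h2, h3]
  by_cases hdisj : Disjoint (L '' D) B
  · exfalso
    obtain ⟨f, u, v, hf1, huv, hf2⟩ := geometric_hahn_banach_compact_closed
      (hDconv.linear_image L) (hDcomp.image hLcont) hBconv hBclosed hdisj
    have hfsum : ∀ a : Finset X → ℝ, f a = ∑ S, a S * f (Pi.single S 1) := by
      intro a
      have := LinearMap.pi_apply_eq_sum_univ (f : (Finset X → ℝ) →ₗ[ℝ] ℝ) a
      simp only [ContinuousLinearMap.coe_coe, smul_eq_mul] at this
      rw [this]
      apply Finset.sum_congr rfl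
      intro S _
      congr 2
      funext T
      rw [Pi.single_apply]
      by_cases h : S = T
      · subst h; simp
      · rw [if_neg h, if_neg (fun h' => h h'.symm)]
    set lam : Finset X → ℝ := fun S => - f (Pi.single S 1) with hlam
    have hlam0 : ∀ S, 0 ≤ lam S := by
      intro S
      by_contra hcon
      push Not at hcon
      have hpos : 0 < f (Pi.single S 1) := by simp only [hlam] at hcon; linarith only [hcon]
      have hPB : ∀ s : ℝ, 0 ≤ s →
          (fun T => (∏ x ∈ T, p x) - s * (Pi.single S (1 : ℝ) : Finset X → ℝ) T) ∈ B := by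
        intro s hs T
        have : 0 ≤ s * (Pi.single S (1 : ℝ) : Finset X → ℝ) T := by
          apply mul_nonneg hs
          rw [Pi.single_apply]
          split_ifs <;> norm_num
        linarith only [this]
      have h1 : ∀ s : ℝ, 0 ≤ s →
          v < f (fun T => ∏ x ∈ T, p x) - s * f (Pi.single S 1) := by
        intro s hs
        have h2 := hf2 _ (hPB s hs)
        have h3 : (fun T => (∏ x ∈ T, p x) - s * (Pi.single S (1 : ℝ) : Finset X → ℝ) T)
            = (fun T => ∏ x ∈ T, p x) - s • (Pi.single S (1 : ℝ) : Finset X → ℝ) := by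
          funext T; simp
        rw [h3, map_sub, map_smul, smul_eq_mul] at h2
        exact h2
      have h4 := h1 (max 0 ((f (fun T => ∏ x ∈ T, p x) - v) / f (Pi.single S 1))) (le_max_left _ _)
      have h5 : (f (fun T => ∏ x ∈ T, p x) - v) / f (Pi.single S 1) * f (Pi.single S 1)
          ≤ max 0 ((f (fun T => ∏ x ∈ T, p x) - v) / f (Pi.single S 1)) * f (Pi.single S 1) :=
        mul_le_mul_of_nonneg_right (le_max_right _ _) hpos.le
      rw [div_mul_cancel₀ _ hpos.ne'] at h5
      linarith only [h4, h5]
    set c := ∑ S, lam S * ∏ x ∈ S, p x with hc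
    have hc0 : 0 ≤ c := Finset.sum_nonneg (fun S _ => mul_nonneg (hlam0 S) (hP S))
    have hkey : ∀ H ∈ F, c < t * ∑ S ∈ H.powerset, lam S := by
      intro H hH
      have hmemD : (Pi.single H (1 : ℝ) : Finset X → ℝ) ∈ D := by
        refine ⟨single_mem_stdSimplex ℝ H, ?_⟩
        intro H' hH'
        rw [Pi.single_apply, if_neg]
        rintro rfl
        exact hH' hH
      have h1 := hf1 _ (Set.mem_image_of_mem L hmemD)
      have h2 := hf2 (fun T => ∏ x ∈ T, p x) (fun S => le_rfl)
      rw [hfsum] at h1 h2
      have h3 : ∑ S, L (Pi.single H 1) S * f (Pi.single S 1)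
          = - (t * ∑ S ∈ H.powerset, lam S) := by
        have h4 : ∀ S, L (Pi.single H 1) S = if S ⊆ H then t else 0 := by
          intro S
          rw [hLapp]
          have h5 : ∑ H' : Finset X, (if S ⊆ H' then (Pi.single H (1 : ℝ) : Finset X → ℝ) H' else 0)
              = if S ⊆ H then 1 else 0 := by
            rw [Finset.sum_eq_single H]
            · simp
            · intro b _ hb
              simp [Pi.single_apply, hb]
            · intro h; exact absurd (mem_univ _) h
          rw [h5]
          split_ifs <;> simp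
        have h6 : ∑ S ∈ H.powerset, lam S = ∑ S, if S ⊆ H then lam S else 0 := by
          rw [← Finset.sum_filter]
          apply Finset.sum_congr _ (fun _ _ => rfl)
          ext S; simp
        rw [h6, Finset.mul_sum, ← Finset.sum_neg_distrib]
        apply Finset.sum_congr rfl
        intro S _
        rw [h4]
        simp only [hlam]
        split_ifs <;> ring
      have h7 : ∑ S, (∏ x ∈ S, p x) * f (Pi.single S 1) = - c := by
        rw [hc, ← Finset.sum_neg_distrib]
        apply Finset.sum_congr rfl
        intro S _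
        simp only [hlam]
        ring
      rw [h3] at h1
      rw [h7] at h2
      linarith only [h1, h2, huv]
    obtain ⟨H1, hH1, hH1min⟩ := F.toFinset.exists_min_image
      (fun H => ∑ S ∈ H.powerset, lam S) (by
        obtain ⟨H, hH⟩ := hFne
        exact ⟨H, Set.mem_toFinset.mpr hH⟩)
    set m := ∑ S ∈ H1.powerset, lam S with hm
    have hcm := hkey H1 (Set.mem_toFinset.mp hH1)
    rw [← hm] at hcm
    have hm0 : 0 < m := by
      by_contra hcon
      push Not at hcon
      have : t * m ≤ 0 := mul_nonpos_of_nonneg_of_nonpos ht0.le hcon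
      linarith only [hcm, hc0, this]
    obtain ⟨G, hG, hcost⟩ := scale_nonneg F p hp (fun S => lam S / m)
      (fun S => div_nonneg (hlam0 S) hm0.le)
      (by
        intro H hH
        rw [← Finset.sum_div, le_div_iff₀ hm0, one_mul]
        exact hH1min H (Set.mem_toFinset.mpr hH))
    have h8 : ∑ S : Finset X, lam S / m * ∏ x ∈ S, p x = c / m := by
      rw [hc, Finset.sum_div]
      apply Finset.sum_congr rfl
      intro S _
      ring
    rw [h8] at hcost
    have h9 := hmin G (by rw [h𝒞, mem_filter]; exact ⟨mem_univ _, hG⟩)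
    have h10 : c / m < t := by
      rw [div_lt_iff₀ hm0]; exact hcm
    have h11 := h9.trans hcost
    linarith only [h11, h10]
  · rw [Set.not_disjoint_iff] at hdisj
    obtain ⟨w, ⟨ν, hν, rfl⟩, hwB⟩ := hdisj
    obtain ⟨⟨hν0, hν1⟩, hνF⟩ := hν
    refine ⟨G0, fun H => t * ν H, hG0.2, fun H => mul_nonneg ht0.le (hν0 H), ?_, ?_, ?_⟩
    · intro H hH
      show t * ν H = 0
      rw [hνF H hH, mul_zero]
    · intro S
      have h1 := hwB S
      rw [hLapp, Finset.mul_sum] at h1
      refine le_trans (le_of_eq ?_) h1
      apply Finset.sum_congr rfl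
      intro H _
      split_ifs <;> simp
    · rw [← Finset.mul_sum, hν1, mul_one]

end Vale.Agent.P034.H953
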