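import Vale.Agent.P034.H953.Scale
import Mathlib.Topology.Algebra.InfiniteSum.Real
import Mathlib.Order.Filter.Ultrafilter.Defs

set_option linter.all false

namespace Vale.Agent.P034.H953

open Finset Vale.Agent.P034

/-- One finite piece of an infinite ground set. -/
theorem finite_piece {X : Type*} (F : Set (Finset X)) (p : X → ℝ) (hp : ∀ x, 0 ≤ p x)
    (g : Finset X → ℝ) (hg : ∀ S, 0 ≤ g S)
    (hF : ∀ H ∈ F, 1 ≤ ∑ S ∈ H.powerset, g S)
    (hs : Summable (fun S : Finset X => g S * ∏ x ∈ S, p x)) (Y : Finset X) :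
    ∃ G : Finset (Finset X), (∀ H ∈ F, H ⊆ Y → ∃ S ∈ G, S ⊆ H) ∧
      ∑ S ∈ G, ∏ x ∈ S, (p x / 1472) ≤ ∑' S : Finset X, g S * ∏ x ∈ S, p x := by
  classical
  have hnn : ∀ S : Finset X, 0 ≤ g S * ∏ x ∈ S, p x :=
    fun S => mul_nonneg (hg S) (Finset.prod_nonneg (fun x _ => hp x))
  set e : {x // x ∈ Y} ↪ X := Function.Embedding.subtype _ with he
  set E : Finset {x // x ∈ Y} ↪ Finset X := (Finset.mapEmbedding e).toEmbedding with hE
  have hEapp : ∀ S, E S = S.map e := fun _ => rfl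
  have hlift : ∀ H : Finset X, H ⊆ Y → ∃ H' : Finset {x // x ∈ Y}, H'.map e = H := by
    intro H hH
    refine ⟨Y.attach.filter (fun x => x.1 ∈ H), ?_⟩
    ext x
    rw [mem_map]
    constructor
    · rintro ⟨a, ha, rfl⟩
      exact (mem_filter.mp ha).2
    · intro hx
      exact ⟨⟨x, hH hx⟩, mem_filter.mpr ⟨mem_attach _ _, hx⟩, rfl⟩
  obtain ⟨G', hG', hcost⟩ := scale_nonneg (X := {x // x ∈ Y}) {H' | H'.map e ∈ F}
    (fun x => p x.1) (fun x => hp x.1) (fun S => g (S.map e)) (fun S => hg _)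
    (by
      intro H' hH'
      refine (hF _ hH').trans (le_of_eq ?_)
      symm
      refine Finset.sum_nbij (fun S => S.map e) ?_ ?_ ?_ (fun _ _ => rfl)
      · intro S hS
        rw [mem_powerset] at hS ⊢
        exact Finset.map_subset_map.mpr hS
      · intro S _ T _ h
        exact Finset.map_injective _ h
      · intro S hS
        rw [Finset.mem_coe, mem_powerset, Finset.subset_map_iff] at hS
        obtain ⟨T, hT, rfl⟩ := hS
        exact ⟨T, by rw [Finset.mem_coe, mem_powerset]; exact hT, rfl⟩)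
  refine ⟨G'.map E, ?_, ?_⟩
  · intro H hH hHY
    obtain ⟨H', rfl⟩ := hlift H hHY
    obtain ⟨S, hS, hSH⟩ := hG' H' hH
    exact ⟨S.map e, Finset.mem_map_of_mem E hS, Finset.map_subset_map.mpr hSH⟩
  · rw [Finset.sum_map]
    have h1 : ∑ S ∈ G', ∏ x ∈ E S, (p x / 1472) = ∑ S ∈ G', ∏ x ∈ S, (p x.1 / 1472) := by
      apply Finset.sum_congr rfl
      intro S _
      rw [hEapp, Finset.prod_map]
      rfl
    rw [h1]
    refine hcost.trans ?_
    have h2 : ∑ S : Finset {x // x ∈ Y}, g (S.map e) * ∏ x ∈ S, p x.1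
        = ∑ S ∈ (univ : Finset (Finset {x // x ∈ Y})).map E, g S * ∏ x ∈ S, p x := by
      rw [Finset.sum_map]
      apply Finset.sum_congr rfl
      intro S _
      rw [hEapp, Finset.prod_map]
      rfl
    rw [h2]
    exact hs.sum_le_tsum _ (fun S _ => hnn S)

/-- The rescaled integrality gap on an arbitrary ground set. -/
theorem scale_infinite {X : Type*} (F : Set (Finset X)) (p : X → ℝ) (hp : ∀ x, 0 ≤ p x)
    (g : Finset X → ℝ) (hg : ∀ S, 0 ≤ g S)
    (hF : ∀ H ∈ F, 1 ≤ ∑ S ∈ H.powerset, g S)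
    (hs : Summable (fun S : Finset X => g S * ∏ x ∈ S, p x)) :
    ∃ G : Set (Finset X), (∀ H ∈ F, ∃ S ∈ G, S ⊆ H) ∧
      Summable (fun S : G => ∏ x ∈ (S : Finset X), (p x / 1472)) ∧
      ∑' S : G, ∏ x ∈ (S : Finset X), (p x / 1472) ≤ ∑' S : Finset X, g S * ∏ x ∈ S, p x := by
  classical
  choose G hG hcost using fun Y : Finset X => finite_piece F p hp g hg hF hs Y
  set U : Ultrafilter (Finset X) := Ultrafilter.of Filter.atTop with hU
  have hUle : (U : Filter (Finset X)) ≤ Filter.atTop := Ultrafilter.of_le _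
  set G0 : Set (Finset X) := {S | ∀ᶠ Y in (U : Filter (Finset X)), S ∈ G Y} with hG0
  have hfin : ∀ T : Finset G0, ∑ S ∈ T, ∏ x ∈ (S : Finset X), (p x / 1472)
      ≤ ∑' S : Finset X, g S * ∏ x ∈ S, p x := by
    intro T
    have h1 : ∀ᶠ Y in (U : Filter (Finset X)), ∀ S ∈ T, (S : Finset X) ∈ G Y := by
      rw [Filter.eventually_all_finset]
      intro S _
      exact S.2
    obtain ⟨Y, hY⟩ := h1.exists
    refine le_trans ?_ (hcost Y)
    have h2 : ∑ S ∈ T, ∏ x ∈ (S : Finset X), (p x / 1472)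
        = ∑ S ∈ T.map (Function.Embedding.subtype _), ∏ x ∈ S, (p x / 1472) := by
      rw [Finset.sum_map]; rfl
    rw [h2]
    apply Finset.sum_le_sum_of_subset_of_nonneg
    · intro S hS
      rw [mem_map] at hS
      obtain ⟨S', hS', rfl⟩ := hS
      exact hY S' hS'
    · intro S _ _
      exact Finset.prod_nonneg (fun x _ => by have := hp x; positivity)
  have hnn : ∀ S : G0, 0 ≤ ∏ x ∈ (S : Finset X), (p x / 1472) :=
    fun S => Finset.prod_nonneg (fun x _ => by have := hp x; positivity)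
  have hsum : Summable (fun S : G0 => ∏ x ∈ (S : Finset X), (p x / 1472)) :=
    summable_of_sum_le hnn hfin
  refine ⟨G0, ?_, hsum, ?_⟩
  · intro H hH
    by_contra hcon
    push Not at hcon
    have h1 : ∀ S ∈ H.powerset, ∀ᶠ Y in (U : Filter (Finset X)), S ∉ G Y := by
      intro S hS
      rw [mem_powerset] at hS
      have h2 : S ∉ G0 := fun h => hcon S h hS
      rw [hG0, Set.mem_ofPred_eq] at h2
      exact Ultrafilter.eventually_not.mpr h2
    rw [← Filter.eventually_all_finset] at h1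
    have h3 : ∀ᶠ Y in (U : Filter (Finset X)), H ⊆ Y := hUle (Filter.eventually_ge_atTop H)
    obtain ⟨Y, hY1, hY2⟩ := (h1.and h3).exists
    obtain ⟨S, hS, hSH⟩ := hG Y H hH hY2
    exact hY1 S (mem_powerset.mpr hSH) hS
  · exact hsum.tsum_le_of_sum_le hfin

end Vale.Agent.P034.H953
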