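import Vale.Agent.P034.Defs
import Vale.Agent.P034.Bdl.B1

/-!
Non-uniform version of the level argument of `Vale/Agent/P034/Bdl/B1.lean`, with smaller
constants.  Levels have sizes `160 * 16 ^ j * q x`, where `q : X → ℝ` is an arbitrary positive
vector, and the number of levels `J x` may depend on the point `x`.
-/

set_option linter.all false

namespace Vale.Agent.P034.H953

open Finset Vale.Agent.P034

variable {X : Type*} [Fintype X] [DecidableEq X]

def Cd (j : ℕ) : ℕ := 16 * 4 ^ j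

theorem Cd_pos (j : ℕ) : 0 < Cd j := by unfold Cd; positivity

noncomputable def AB (J : ℕ) (l : X → ℝ) (ψ : X → ℕ) (n : ℕ → ℕ) : ℝ :=
  ∑ x, l x * ψ x + ∑ j ∈ range J, topSum l (Cd j * n j) / Cd j

theorem AB_step (J : ℕ) (l : X → ℝ) (φ ψ : X → ℕ) (x : X) (hx : ψ x < φ x) (hJ : ψ x < J)
    (hlx : l x ≤ (topSum l (Cd (ψ x) * cnt φ ψ (ψ x))
      - topSum l (Cd (ψ x) * (cnt φ ψ (ψ x) - 1))) / Cd (ψ x)) :
    AB J l (Function.update ψ x (ψ x + 1)) (cnt φ (Function.update ψ x (ψ x + 1)))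
      ≤ AB J l ψ (cnt φ ψ) := by
  unfold AB
  have h1 : ∑ y, l y * ((Function.update ψ x (ψ x + 1) y : ℕ) : ℝ)
      = ∑ y, l y * (ψ y : ℝ) + l x := by
    have h : ∀ y, l y * ((Function.update ψ x (ψ x + 1) y : ℕ) : ℝ)
        = l y * (ψ y : ℝ) + if y = x then l x else 0 := by
      intro y
      by_cases hyx : y = x
      · subst hyx
        simp only [Function.update_self, Nat.cast_add, Nat.cast_one, ↓reduceIte]
        ring
      · rw [Function.update_of_ne hyx]
        simp [hyx]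
    rw [Finset.sum_congr rfl (fun y _ => h y), Finset.sum_add_distrib]
    simp only [sum_ite_eq', mem_univ, ↓reduceIte]
  rw [h1]
  have hmem : ψ x ∈ range J := by simpa using hJ
  rw [← Finset.add_sum_erase _ _ hmem, ← Finset.add_sum_erase (range J)
    (fun j => topSum l (Cd j * cnt φ ψ j) / (Cd j : ℝ)) hmem]
  have h2 : ∑ j ∈ (range J).erase (ψ x),
      topSum l (Cd j * cnt φ (Function.update ψ x (ψ x + 1)) j) / (Cd j : ℝ)
      ≤ ∑ j ∈ (range J).erase (ψ x), topSum l (Cd j * cnt φ ψ j) / (Cd j : ℝ) := by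
    apply Finset.sum_le_sum
    intro j _
    apply div_le_div_of_nonneg_right _ (by positivity)
    exact topSum_mono l (Nat.mul_le_mul_left _ (cnt_step_le φ ψ x j))
  have h3 : topSum l (Cd (ψ x) * cnt φ (Function.update ψ x (ψ x + 1)) (ψ x)) / (Cd (ψ x) : ℝ)
      ≤ topSum l (Cd (ψ x) * (cnt φ ψ (ψ x) - 1)) / (Cd (ψ x) : ℝ) := by
    apply div_le_div_of_nonneg_right _ (by positivity)
    exact topSum_mono l (Nat.mul_le_mul_left _ (cnt_step_self φ ψ x hx))
  rw [sub_div] at hlx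
  linarith only [hlx, h2, h3]

theorem geom_quarter_le (J : ℕ) : ∑ j ∈ range J, (1 / (4 : ℝ)) ^ j ≤ 4 / 3 := by
  have h : ∑ j ∈ range J, (1 / (4 : ℝ)) ^ j = 4 / 3 - 4 / 3 * (1 / 4) ^ J := by
    induction J with
    | zero => simp
    | succ k ih => rw [Finset.sum_range_succ, ih, pow_succ]; ring
  rw [h]
  have : (0 : ℝ) ≤ (1 / 4) ^ J := by positivity
  linarith only [this]

theorem sum_inv_Cd (J : ℕ) : ∑ j ∈ range J, (1 : ℝ) / (Cd j : ℝ) ≤ 1 / 12 := by
  have h : ∀ j, (1 : ℝ) / (Cd j : ℝ) = (1 / 16) * (1 / (4 : ℝ)) ^ j := by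
    intro j
    unfold Cd
    push_cast
    rw [one_div_pow]
    field_simp
  rw [Finset.sum_congr rfl (fun j _ => h j), ← Finset.mul_sum]
  have := geom_quarter_le J
  linarith only [this]

theorem exists_valid (J : ℕ) (F : Finset (Finset X)) (lam : Finset X → X → ℝ)
    (hl : ∀ H ∈ F, ∀ x, 0 ≤ lam H x) (hsum : ∀ H ∈ F, ∑ x, lam H x ≤ 1)
    (hsupp : ∀ H ∈ F, ∀ x, x ∉ H → lam H x = 0) (φ : X → ℕ) (hφ : ∀ x, φ x ≤ J)
    (H : Finset X) (hH : H ∈ F) :
    ∃ ψ : X → ℕ, (∀ x, ψ x ≤ φ x) ∧ diffSet φ ψ ⊆ H ∧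
      (∃ H' ∈ F, AB J (lam H') ψ (cnt φ ψ) ≤ 1 / 12) ∧
      ∀ H' ∈ F, AB J (lam H') ψ (cnt φ ψ) ≤ 1 / 12 → ∀ x, ψ x < φ x →
        (topSum (lam H') (Cd (ψ x) * cnt φ ψ (ψ x))
          - topSum (lam H') (Cd (ψ x) * (cnt φ ψ (ψ x) - 1))) / Cd (ψ x) < lam H' x := by
  classical
  set S : Finset (X → ℕ) := (Fintype.piFinset (fun x => range (φ x + 1))).filter
    (fun ψ => diffSet φ ψ ⊆ H ∧ ∃ H' ∈ F, AB J (lam H') ψ (cnt φ ψ) ≤ 1 / 12) with hS
  have hne : S.Nonempty := by
    refine ⟨fun x => if x ∈ H then 0 else φ x, ?_⟩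
    rw [hS, Finset.mem_filter]
    refine ⟨?_, ?_, H, hH, ?_⟩
    · rw [Fintype.mem_piFinset]
      intro x
      simp only [mem_range]
      split_ifs <;> omega
    · intro x hx
      rw [mem_diffSet] at hx
      by_contra hxH
      simp [hxH] at hx
    · unfold AB
      have h1 : ∑ x, lam H x * (((if x ∈ H then 0 else φ x : ℕ)) : ℝ) = 0 := by
        apply Finset.sum_eq_zero
        intro x _
        by_cases hxH : x ∈ H
        · simp [hxH]
        · simp [hsupp H hH x hxH]
      rw [h1, zero_add]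
      refine le_trans (Finset.sum_le_sum ?_) (sum_inv_Cd J)
      intro j _
      apply div_le_div_of_nonneg_right _ (by positivity)
      exact (topSum_le_sum _ (hl H hH) _).trans (hsum H hH)
  obtain ⟨ψ, hψ⟩ := S.exists_maximal hne
  have hψS : ψ ∈ S := hψ.prop
  have hψS' := hψS
  rw [hS, Finset.mem_filter, Fintype.mem_piFinset] at hψS'
  obtain ⟨hle, hsub, hex⟩ := hψS'
  have hle' : ∀ x, ψ x ≤ φ x := by
    intro x
    have := hle x
    simp at this
    omega
  refine ⟨ψ, hle', hsub, hex, ?_⟩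
  intro H' hH' hA x hx
  by_contra hcon
  push Not at hcon
  have hstep := AB_step J (lam H') φ ψ x hx (lt_of_lt_of_le hx (hφ x)) hcon
  have hnew : Function.update ψ x (ψ x + 1) ∈ S := by
    rw [hS, Finset.mem_filter, Fintype.mem_piFinset]
    refine ⟨?_, ?_, H', hH', hstep.trans hA⟩
    · intro y
      by_cases hyx : y = x
      · subst hyx
        simp
        omega
      · rw [Function.update_of_ne hyx]
        exact hle y
    · intro y hy
      apply hsub
      rw [mem_diffSet] at hy ⊢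
      by_cases hyx : y = x
      · subst hyx; exact hx
      · rw [Function.update_of_ne hyx] at hy
        exact hy
  have hge : ψ ≤ Function.update ψ x (ψ x + 1) := by
    intro y
    by_cases hyx : y = x
    · subst hyx; simp only [Function.update_self, le_add_iff_nonneg_right, zero_le]
    · rw [Function.update_of_ne hyx]
  have := hψ.le_of_ge hnew hge x
  simp only [Function.update_self, add_le_iff_nonpos_right, nonpos_iff_eq_zero, one_ne_zero] at this

noncomputable def wd (j : ℕ) : ℝ := 1 / (160 * 16 ^ j)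

theorem wd_pos (j : ℕ) : 0 < wd j := by unfold wd; positivity

theorem prod_wd (J : ℕ) (ψ : X → ℕ) (T : Finset X) (hT : ∀ x ∈ T, ψ x < J) :
    ∏ x ∈ T, wd (ψ x) = ∏ j ∈ range J, wd j ^ prof ψ T j := by
  rw [← Finset.prod_fiberwise_of_maps_to (g := ψ) (t := range J)]
  · apply Finset.prod_congr rfl
    intro j _
    unfold prof
    rw [← Finset.prod_const]
    apply Finset.prod_congr rfl
    intro x hx
    simp only [mem_filter] at hx
    rw [hx.2]
  · intro x hx
    simpa using hT x hx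

theorem sum_wd_Cd (J : ℕ) : ∑ j ∈ range J, wd j * (Cd j : ℝ) ≤ 2 / 15 := by
  have h : ∀ j, wd j * (Cd j : ℝ) = (1 / 10) * (1 / (4 : ℝ)) ^ j := by
    intro j
    unfold Cd wd
    push_cast
    rw [one_div_pow]
    have : (16 : ℝ) ^ j = 4 ^ j * 4 ^ j := by
      rw [← mul_pow]; norm_num
    rw [this]
    field_simp
    norm_num
  rw [Finset.sum_congr rfl (fun j _ => h j), ← Finset.mul_sum]
  have := geom_quarter_le J
  linarith

theorem pow_div_factorial_le (n : ℕ) (hn : 0 < n) :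
    (n : ℝ) ^ n / (Nat.factorial n : ℝ) ≤ Real.exp 1 ^ (n - 1) := by
  induction n with
  | zero => omega
  | succ k ih =>
    rcases Nat.eq_zero_or_pos k with h0 | h0
    · subst h0; simp
    · have ih' := ih h0
      have hk : (0 : ℝ) < k := by exact_mod_cast h0
      have hf : (0 : ℝ) < (Nat.factorial k : ℝ) := by exact_mod_cast Nat.factorial_pos k
      have h1 : ((k + 1 : ℕ) : ℝ) ^ (k + 1) / (Nat.factorial (k + 1) : ℝ)
          = (1 + 1 / (k : ℝ)) ^ k * ((k : ℝ) ^ k / (Nat.factorial k : ℝ)) := by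
        rw [Nat.factorial_succ]
        push_cast
        have h2 : (1 + 1 / (k : ℝ)) ^ k * (k : ℝ) ^ k = ((k : ℝ) + 1) ^ k := by
          rw [← mul_pow]; congr 1; field_simp
        rw [pow_succ, ← mul_div_assoc, h2]
        field_simp
      have h3 : (1 + 1 / (k : ℝ)) ^ k ≤ Real.exp 1 := by
        have h4 : 1 + 1 / (k : ℝ) ≤ Real.exp (1 / (k : ℝ)) := by
          have := Real.add_one_le_exp (1 / (k : ℝ)); linarith
        calc (1 + 1 / (k : ℝ)) ^ k ≤ (Real.exp (1 / (k : ℝ))) ^ k :=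
              pow_le_pow_left₀ (by positivity) h4 k
          _ = Real.exp 1 := by
              rw [← Real.exp_nat_mul]; congr 1; field_simp
      rw [h1]
      calc (1 + 1 / (k : ℝ)) ^ k * ((k : ℝ) ^ k / (Nat.factorial k : ℝ))
          ≤ Real.exp 1 * Real.exp 1 ^ (k - 1) :=
            mul_le_mul h3 ih' (by positivity) (Real.exp_pos 1).le
        _ = Real.exp 1 ^ (k + 1 - 1) := by
            rw [← pow_succ']; congr 1; omega

theorem multi_bound (J n : ℕ) (hn : 0 < n) :
    ∑ t ∈ piAntidiag (range J) n, ∏ j ∈ range J,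
      (wd j * ((Cd j : ℝ) * n)) ^ t j / (Nat.factorial (t j) : ℝ)
      ≤ 2 / 15 * (29 / 80) ^ (n - 1) := by
  have h1 : ∀ t ∈ piAntidiag (range J) n,
      ∏ j ∈ range J, (wd j * ((Cd j : ℝ) * n)) ^ t j / (Nat.factorial (t j) : ℝ)
        = (1 / (Nat.factorial n : ℝ)) * ((Nat.multinomial (range J) t : ℝ) *
          ∏ j ∈ range J, (wd j * ((Cd j : ℝ) * n)) ^ t j) := by
    intro t ht
    rw [mem_piAntidiag] at ht
    have hspec := Nat.multinomial_spec (range J) t
    rw [ht.1] at hspec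
    have hspec' : (∏ j ∈ range J, (Nat.factorial (t j) : ℝ)) * (Nat.multinomial (range J) t : ℝ)
        = (Nat.factorial n : ℝ) := by
      rw [← hspec]; push_cast; ring
    rw [Finset.prod_div_distrib, ← hspec']
    have hp : (∏ j ∈ range J, (Nat.factorial (t j) : ℝ)) ≠ 0 := by
      apply Finset.prod_ne_zero_iff.mpr
      intro j _
      exact_mod_cast Nat.factorial_ne_zero _
    have hm : (Nat.multinomial (range J) t : ℝ) ≠ 0 := by
      intro h0
      rw [h0, mul_zero] at hspec'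
      exact (Nat.factorial_ne_zero n) (by exact_mod_cast hspec'.symm)
    rw [div_eq_iff hp, one_div, mul_inv]
    set P := ∏ j ∈ range J, (wd j * ((Cd j : ℝ) * n)) ^ t j
    set A := ∏ j ∈ range J, (Nat.factorial (t j) : ℝ)
    field_simp
  rw [Finset.sum_congr rfl h1, ← Finset.mul_sum, ← Finset.sum_pow_eq_sum_piAntidiag]
  have h2 : ∑ j ∈ range J, wd j * ((Cd j : ℝ) * n) ≤ (2 / 15) * n := by
    have : ∑ j ∈ range J, wd j * ((Cd j : ℝ) * n) = (∑ j ∈ range J, wd j * (Cd j : ℝ)) * n := by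
      rw [Finset.sum_mul]
      apply Finset.sum_congr rfl
      intro j _
      ring
    rw [this]
    exact mul_le_mul_of_nonneg_right (sum_wd_Cd J) (by positivity)
  have h3 : 0 ≤ ∑ j ∈ range J, wd j * ((Cd j : ℝ) * n) := by
    apply Finset.sum_nonneg
    intro j _
    have := wd_pos j
    positivity
  have h4 : (∑ j ∈ range J, wd j * ((Cd j : ℝ) * n)) ^ n ≤ ((2 / 15) * n) ^ n :=
    pow_le_pow_left₀ h3 h2 n
  have h5 := pow_div_factorial_le n hn
  have h6 : Real.exp 1 ≤ 87 / 32 := by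
    have := Real.exp_one_lt_d9
    linarith only [this]
  have h7 : (2 / 15 : ℝ) ^ n * Real.exp 1 ^ (n - 1) ≤ 2 / 15 * (29 / 80) ^ (n - 1) := by
    obtain ⟨m, rfl⟩ : ∃ m, n = m + 1 := ⟨n - 1, by omega⟩
    rw [Nat.add_sub_cancel, pow_succ']
    rw [mul_assoc, ← mul_pow]
    apply mul_le_mul_of_nonneg_left _ (by norm_num)
    apply pow_le_pow_left₀ (by have := Real.exp_pos 1; positivity)
    linarith only [h6]
  calc 1 / (Nat.factorial n : ℝ) * (∑ j ∈ range J, wd j * ((Cd j : ℝ) * n)) ^ n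
      ≤ 1 / (Nat.factorial n : ℝ) * ((2 / 15) * n) ^ n :=
        mul_le_mul_of_nonneg_left h4 (by positivity)
    _ = (2 / 15) ^ n * ((n : ℝ) ^ n / (Nat.factorial n : ℝ)) := by rw [mul_pow]; ring
    _ ≤ (2 / 15) ^ n * Real.exp 1 ^ (n - 1) :=
        mul_le_mul_of_nonneg_left h5 (by positivity)
    _ ≤ _ := h7

theorem geom_bound (M : ℕ) : ∑ n ∈ Icc 1 M, ((2 : ℝ) / 15 * (29 / 80) ^ (n - 1)) ≤ 21 / 100 := by
  have h : ∑ n ∈ Icc 1 M, ((2 : ℝ) / 15 * (29 / 80) ^ (n - 1))
      = 2 / 15 * (80 / 51) * (1 - (29 / 80) ^ M) := by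
    induction M with
    | zero => simp
    | succ k ih =>
      rw [Finset.sum_Icc_succ_top (by omega), ih, Nat.add_sub_cancel, pow_succ]
      ring
  rw [h]
  have : (0 : ℝ) ≤ (29 / 80) ^ M := by positivity
  nlinarith only [this]

theorem count_bound (J : ℕ) (ψ : X → ℕ) (N : (ℕ → ℕ) → Finset X)
    (hN : ∀ t : ℕ → ℕ, ∀ j ∈ range J,
      ((N t).filter (fun x => ψ x = j)).card ≤ Cd j * ∑ i ∈ range (j + 1), t i) :
    ∑ T ∈ univ.filter (fun T : Finset X => T.Nonempty ∧ (∀ x ∈ T, ψ x < J) ∧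
      T ⊆ N (prof ψ T)), ∏ x ∈ T, wd (ψ x) ≤ 21 / 100 := by
  classical
  set V := univ.filter (fun T : Finset X => T.Nonempty ∧ (∀ x ∈ T, ψ x < J) ∧
      T ⊆ N (prof ψ T)) with hV
  refine le_trans ?_ (geom_bound (Fintype.card X))
  rw [← Finset.sum_fiberwise_of_maps_to (g := fun T : Finset X => T.card)
    (t := Icc 1 (Fintype.card X))]
  swap
  · intro T hT
    rw [hV, mem_filter] at hT
    rw [mem_Icc]
    exact ⟨Finset.card_pos.mpr hT.2.1, Finset.card_le_univ T⟩
  apply Finset.sum_le_sum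
  intro n hn
  rw [mem_Icc] at hn
  refine le_trans ?_ (multi_bound J n (by omega))
  rw [← Finset.sum_fiberwise_of_maps_to (g := fun T : Finset X => prof ψ T)
    (t := piAntidiag (range J) n)]
  swap
  · intro T hT
    rw [mem_filter, hV, mem_filter] at hT
    rw [mem_piAntidiag]
    obtain ⟨⟨_, _, h2, _⟩, h3⟩ := hT
    refine ⟨?_, ?_⟩
    · rw [sum_prof J ψ T h2]; exact h3
    · intro i hi
      unfold prof at hi
      obtain ⟨x, hx⟩ := Finset.card_pos.mp (Nat.pos_of_ne_zero hi)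
      rw [mem_filter] at hx
      rw [mem_range, ← hx.2]
      exact h2 x hx.1
  apply Finset.sum_le_sum
  intro t ht
  rw [mem_piAntidiag] at ht
  set W := (V.filter (fun T => T.card = n)).filter (fun T => prof ψ T = t) with hW
  have hWmem : ∀ T ∈ W, T ⊆ N t ∧ (∀ x ∈ T, ψ x < J) ∧ prof ψ T = t := by
    intro T hT
    rw [hW, mem_filter, mem_filter, hV, mem_filter] at hT
    obtain ⟨⟨⟨_, _, h2, h3⟩, _⟩, h5⟩ := hT
    rw [h5] at h3
    exact ⟨h3, h2, h5⟩
  have h1 : ∀ T ∈ W, ∏ x ∈ T, wd (ψ x) = ∏ j ∈ range J, wd j ^ t j := by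
    intro T hT
    obtain ⟨_, h2, h3⟩ := hWmem T hT
    rw [prod_wd J ψ T h2, h3]
  rw [Finset.sum_congr rfl h1, Finset.sum_const, nsmul_eq_mul]
  have hcard := card_prof_le J ψ (N t) t W hWmem
  have hcard' : (W.card : ℝ) ≤ ∏ j ∈ range J, ((Cd j : ℝ) * n) ^ t j / (Nat.factorial (t j) : ℝ) := by
    have h2 : (W.card : ℝ) ≤
        ∏ j ∈ range J, ((((N t).filter (fun x => ψ x = j)).card).choose (t j) : ℝ) := by
      exact_mod_cast hcard
    refine h2.trans ?_
    apply Finset.prod_le_prod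
    · intro j _; positivity
    · intro j hj
      refine (Nat.choose_le_pow_div (α := ℝ) (t j) _).trans ?_
      apply div_le_div_of_nonneg_right _ (by positivity)
      apply pow_le_pow_left₀ (by positivity)
      have h3 := hN t j hj
      have h4 : ∑ i ∈ range (j + 1), t i ≤ n := by
        rw [← ht.1]
        apply Finset.sum_le_sum_of_subset
        intro i hi
        rw [mem_range] at hi hj ⊢
        omega
      have h5 : ((N t).filter (fun x => ψ x = j)).card ≤ Cd j * n :=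
        h3.trans (Nat.mul_le_mul_left _ h4)
      exact_mod_cast h5
  calc (W.card : ℝ) * ∏ j ∈ range J, wd j ^ t j
      ≤ (∏ j ∈ range J, ((Cd j : ℝ) * n) ^ t j / (Nat.factorial (t j) : ℝ)) * ∏ j ∈ range J, wd j ^ t j := by
        apply mul_le_mul_of_nonneg_right hcard'
        apply Finset.prod_nonneg
        intro j _
        have := wd_pos j
        positivity
    _ = ∏ j ∈ range J, (wd j * ((Cd j : ℝ) * n)) ^ t j / (Nat.factorial (t j) : ℝ) := by
        rw [← Finset.prod_mul_distrib]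
        apply Finset.prod_congr rfl
        intro j _
        rw [mul_pow]
        ring

end Vale.Agent.P034.H953
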