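import Vale.Agent.P034.H953.Core

set_option linter.all false

namespace Vale.Agent.P034.H953

open Finset Vale.Agent.P034

variable {X : Type*} [Fintype X]

/-- A fractional cover of cost at most `1/2` at the vector `p` gives a cover of cost at most `1/2`
at the vector `p / 736`. -/
theorem small_pos [DecidableEq X] (F : Finset (Finset X)) (p : X → ℝ) (hp : ∀ x, 0 < p x)
    (g : Finset X → ℝ) (hg : ∀ S, 0 ≤ g S) (hF : ∀ H ∈ F, 1 ≤ ∑ S ∈ H.powerset, g S)
    (hw : ∑ S : Finset X, g S * ∏ x ∈ S, p x ≤ 1 / 2) :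
    ∃ G : Finset (Finset X), (∀ H ∈ F, ∃ S ∈ G, S ⊆ H) ∧
      ∑ S ∈ G, ∏ x ∈ S, (p x / 736) ≤ 1 / 2 := by
  classical
  by_contra hns
  have hns' : ∀ G : Finset (Finset X), (∀ H ∈ F, ∃ S ∈ G, S ⊆ H) →
      1 / 2 ≤ ∑ S ∈ G, ∏ x ∈ S, (p x / 736) := by
    intro G hG
    by_contra hcon
    push Not at hcon
    exact hns ⟨G, hG, hcon.le⟩
  have hnn : ∀ S : Finset X, 0 ≤ g S * ∏ x ∈ S, p x :=
    fun S => mul_nonneg (hg S) (Finset.prod_nonneg (fun x _ => (hp x).le))
  have hsplit : ∑ S : Finset X, g S * ∏ x ∈ S, p x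
      = g ∅ + ∑ S ∈ univ.erase (∅ : Finset X), g S * ∏ x ∈ S, p x := by
    rw [← Finset.add_sum_erase _ _ (mem_univ (∅ : Finset X))]
    simp only [prod_empty, mul_one]
  have hrest : 0 ≤ ∑ S ∈ univ.erase (∅ : Finset X), g S * ∏ x ∈ S, p x :=
    Finset.sum_nonneg (fun S _ => hnn S)
  have hγ0 : 0 ≤ g ∅ := hg ∅
  have h1γ : 0 < 1 - g ∅ := by linarith only [hw, hsplit, hrest]
  have hcore := core F (fun S => if S = ∅ then 0 else g S / (1 - g ∅))
    (by
      intro S
      split_ifs
      · exact le_rfl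
      · exact div_nonneg (hg S) h1γ.le)
    (by
      intro H hH
      have h1 := hF H hH
      have hmem : (∅ : Finset X) ∈ H.powerset := by simp
      rw [← Finset.add_sum_erase _ _ hmem] at h1
      rw [← Finset.add_sum_erase _ _ hmem]
      have h2 : ∑ S ∈ H.powerset.erase ∅, (if S = ∅ then 0 else g S / (1 - g ∅))
          = (∑ S ∈ H.powerset.erase ∅, g S) / (1 - g ∅) := by
        rw [Finset.sum_div]
        apply Finset.sum_congr rfl
        intro S hS
        rw [if_neg (Finset.ne_of_mem_erase hS)]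
      rw [h2]
      simp only [if_true, zero_add]
      rw [le_div_iff₀ h1γ]
      linarith only [h1])
    (fun x => p x / 736) (fun x => by have := hp x; positivity) hns'
  have h3 : ∑ S : Finset X, (if S = ∅ then 0 else g S / (1 - g ∅)) *
        ∏ x ∈ S, (1280 / 3 * (p x / 736))
      ≤ (∑ S ∈ univ.erase (∅ : Finset X), g S * ∏ x ∈ S, p x) / (1 - g ∅) * (1280 / 2208) := by
    rw [← Finset.add_sum_erase _ _ (mem_univ (∅ : Finset X)), Finset.sum_div, Finset.sum_mul]
    simp only [if_true, zero_mul, zero_add]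
    apply Finset.sum_le_sum
    intro S hS
    have hS0 := Finset.ne_of_mem_erase hS
    rw [if_neg hS0]
    have hc : 1 ≤ S.card := Finset.card_pos.mpr (Finset.nonempty_iff_ne_empty.mpr hS0)
    have h5 : ∏ x ∈ S, (1280 / 3 * (p x / 736)) = (1280 / 2208) ^ S.card * ∏ x ∈ S, p x := by
      rw [← Finset.prod_const, ← Finset.prod_mul_distrib]
      apply Finset.prod_congr rfl
      intro x _
      ring
    rw [h5]
    have h6 : (1280 / 2208 : ℝ) ^ S.card ≤ (1280 / 2208) ^ 1 :=
      pow_le_pow_of_le_one (by norm_num) (by norm_num) hc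
    rw [pow_one] at h6
    have h8 : 0 ≤ g S * (∏ x ∈ S, p x) / (1 - g ∅) := div_nonneg (hnn S) h1γ.le
    have h9 := mul_le_mul_of_nonneg_left h6 h8
    refine le_trans (le_of_eq ?_) h9
    ring
  have h9 : (∑ S ∈ univ.erase (∅ : Finset X), g S * ∏ x ∈ S, p x) / (1 - g ∅) ≤ 1 / 2 := by
    rw [div_le_iff₀ h1γ]
    linarith only [hw, hsplit, hγ0]
  have h10 := hcore.trans h3
  linarith only [h10, h9]

theorem isSmall_of_frac (F : Set (Finset X)) (h0 : ∅ ∉ F) (p : ℝ) (hp : 0 ≤ p)
    (g : Finset X → ℝ) (hg : IsFracCover g F) (hw : fracCost g p ≤ 1 / 2) :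
    IsSmall (p / 736) F := by
  classical
  rcases hp.eq_or_lt with rfl | hp
  · rw [zero_div]
    exact isSmall_zero F h0
  obtain ⟨G, hG, hcost⟩ := small_pos F.toFinset (fun _ => p) (fun _ => hp) g
    (fun S => (hg.1 S).1) (fun H hH => hg.2 H (Set.mem_toFinset.mp hH)) (by
      unfold fracCost at hw
      simpa only [Finset.prod_const] using hw)
  refine ⟨G, fun H hH => hG H (Set.mem_toFinset.mpr hH), ?_⟩
  unfold coverCost
  simpa only [Finset.prod_const] using hcost

theorem threshold_le (F : Set (Finset X)) (h0 : ∅ ∉ F) :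
    fracExpThreshold F ≤ 736 * expThreshold F := by
  obtain ⟨⟨h1, h2, g, h3, h4⟩, _⟩ := isGreatest_frac F h0
  have h5 := isSmall_of_frac F h0 _ h1 g h3 h4
  have h6 := (isGreatest_small F h0).2 (show fracExpThreshold F / 736 ∈ smallParams F from
    ⟨by positivity, by linarith only [h2, h1], h5⟩)
  linarith only [h6]

theorem talagrand (F : Set (Finset X)) (hne : F ≠ Set.univ) (hup : IsUpperSet F) :
    IsGreatest (smallParams F) (expThreshold F) ∧
    IsGreatest (fracParams F) (fracExpThreshold F) ∧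
    fracExpThreshold F ≤ 736 * expThreshold F := by
  have h0 := empty_not_mem F hne hup
  exact ⟨isGreatest_small F h0, isGreatest_frac F h0, threshold_le F h0⟩

end Vale.Agent.P034.H953
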